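import Vale.Agent.P095.Diff

/-!
P095: the differences of two copies generate the unit left ideal, hence the sum of
`star D * D` is uniformly bounded below.
-/

namespace Vale.Agent.P095

universe u

variable {F : Type u} [CStarAlgebra F] {G : Type} {α : G → F →⋆ₐ[ℂ] F} {n : ℕ}
  (P : Pool α n)

lemma commutator_mul_eq {a b c e B C E : F} (h1 : Commute b (C * E)) (h2 : Commute b E) :
    a * (b * c - c * b) * e =
      (a * b) * (c * e - C * E) + (a * (C * E) - a * c * E) * (b - B) +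
        -a * (c * e * b - C * E * B) + -(a * c * b) * (e - E) + a * c * (e * b - E * B) := by
  have e1 : a * (b * (C * E)) = a * (C * E * b) := by rw [h1.eq]
  have e2 : a * c * (b * E) = a * c * (E * b) := by rw [h2.eq]
  simp only [mul_sub, sub_mul, neg_mul, ← mul_assoc] at e1 e2 ⊢
  rw [e1, e2]
  abel

variable [Group G] (h1 : α 1 = StarAlgHom.id ℂ F)

include h1

lemma exists_lower :
    ∃ δ : ℝ, 0 < δ ∧ ∃ B : ℝ, ∀ g p, p.1 ≠ p.2 →
      ∃ q : F, ‖q‖ ≤ B ∧ α g (kern P 1 p) - (δ : ℂ) • 1 = star q * q := by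
  let := CStarAlgebra.spectralOrder F
  have := CStarAlgebra.spectralOrderedRing F
  set R : ℝ := 4 * (1 + P.bound) ^ 3 with hR
  set N : ℝ := (Fintype.card (Fin 5 × Fin n) : ℝ) * (R * R) + 1 with hN
  have hN0 : 0 < N := by
    rw [hN]
    exact add_pos_of_nonneg_of_pos (mul_nonneg (Nat.cast_nonneg _) (mul_self_nonneg R)) one_pos
  obtain ⟨K, hK0, hK⟩ : ∃ K : ℝ, 0 ≤ K ∧ ∀ g p, ‖α g (kern P 1 p)‖ ≤ K := by
    refine ⟨(Fintype.card (Fin 5 × Fin n) : ℝ) * (2 * (1 + P.bound) ^ 3) ^ 2,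
      mul_nonneg (Nat.cast_nonneg _) (sq_nonneg _),
      fun g p => ?_⟩
    refine (NonUnitalStarAlgHom.norm_apply_le (α g) _).trans ((norm_sum_le _ _).trans ?_)
    refine (Finset.sum_le_sum (g := fun _ => (2 * (1 + P.bound) ^ 3) ^ 2) fun x _ => ?_).trans
      (le_of_eq (by rw [Finset.sum_const, Finset.card_univ, nsmul_eq_mul]))
    rw [h1, StarAlgHom.coe_id, id_eq, CStarRing.norm_star_mul_self, ← sq]
    exact pow_le_pow_left₀ (norm_nonneg _) (norm_diff_le P p x) 2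
  refine ⟨N⁻¹, inv_pos.2 hN0, K + N⁻¹ + 1, fun g p hp => ?_⟩
  let r : Fin 5 × Fin n → F := fun x =>
    (![P.a p.1 x.2 * (P.c p.2 x.2 * P.e p.2 x.2) - P.a p.1 x.2 * P.c p.1 x.2 * P.e p.2 x.2,
      P.a p.1 x.2 * P.b p.1 x.2, -P.a p.1 x.2, -(P.a p.1 x.2 * P.c p.1 x.2 * P.b p.1 x.2),
      P.a p.1 x.2 * P.c p.1 x.2] : Fin 5 → F) x.1
  have hone : ∑ x, r x * diff P p x = 1 := by
    rw [Fintype.sum_prod_type_right, ← P.rel p.1]
    refine Finset.sum_congr rfl fun l _ => ?_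
    have hc : ∀ v ∈ entries P p.2, Commute (P.b p.1 l) v := fun v hv => by
      have := (P.comm p.1 p.2 hp 1 1 (P.b p.1 l) (Or.inl (Or.inl (Or.inr ⟨l, rfl⟩))) v hv).1
      simpa [h1] using this
    rw [commutator_mul_eq (B := P.b p.2 l) (C := P.c p.2 l) (E := P.e p.2 l)
      ((hc _ (Or.inl (Or.inr ⟨l, rfl⟩))).mul_right (hc _ (Or.inr ⟨l, rfl⟩)))
      (hc _ (Or.inr ⟨l, rfl⟩)), Fin.sum_univ_five]
    simp [r, diff, word]
    abel
  have hr : ∀ x, ‖r x‖ ≤ R := by
    rintro ⟨t, l⟩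
    obtain ⟨ha, hb, hc, he⟩ := P.norm_le p.1 l
    obtain ⟨-, -, hc', he'⟩ := P.norm_le p.2 l
    have h0 : 0 ≤ P.bound := (norm_nonneg _).trans ha
    have m2 : ∀ {u v : F}, ‖u‖ ≤ P.bound → ‖v‖ ≤ P.bound → ‖u * v‖ ≤ P.bound * P.bound :=
      fun hu hv => (norm_mul_le _ _).trans (mul_le_mul hu hv (norm_nonneg _) h0)
    have m3 : ∀ {u v : F}, ‖u‖ ≤ P.bound * P.bound → ‖v‖ ≤ P.bound →
        ‖u * v‖ ≤ P.bound * P.bound * P.bound :=
      fun hu hv => (norm_mul_le _ _).trans (mul_le_mul hu hv (norm_nonneg _) (mul_nonneg h0 h0))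
    have q0 : ‖P.a p.1 l * (P.c p.2 l * P.e p.2 l) - P.a p.1 l * P.c p.1 l * P.e p.2 l‖ ≤
        2 * (P.bound * P.bound * P.bound) := by
      refine (norm_sub_le _ _).trans ?_
      rw [← mul_assoc]
      linarith [m3 (m2 ha hc') he', m3 (m2 ha hc) he']
    have q2 : ‖P.a p.1 l * P.b p.1 l‖ ≤ P.bound * P.bound := m2 ha hb
    have q3 := m3 (m2 ha hc) hb
    have q4 := m2 ha hc
    fin_cases t <;> simp [r, hR] <;>
      nlinarith [mul_nonneg h0 h0, mul_nonneg (mul_nonneg h0 h0) h0]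
  have hsq : (1 : F) ≤ N • kern P 1 p := by
    set v := fun x => r x * diff P p x with hv
    have hcs : star (∑ x, v x) * (∑ x, v x) ≤
        (Fintype.card (Fin 5 × Fin n) : ℝ) • ∑ x, star (v x) * v x := by
      have h : 0 ≤ ∑ x, ∑ z, star (v x - v z) * (v x - v z) :=
        Finset.sum_nonneg fun x _ => Finset.sum_nonneg fun z _ => star_mul_self_nonneg _
      have e : ∑ x, ∑ z, star (v x - v z) * (v x - v z) =
          (2 : ℝ) • ((Fintype.card (Fin 5 × Fin n) : ℝ) • (∑ x, star (v x) * v x) -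
            star (∑ x, v x) * (∑ x, v x)) := by
        simp only [star_sub, sub_mul, mul_sub, Finset.sum_sub_distrib, Finset.sum_const,
          star_sum, Finset.sum_mul, Finset.mul_sum, Finset.card_univ]
        rw [Finset.sum_comm (f := fun x z => star (v z) * v x)]
        simp only [← Finset.smul_sum, Nat.cast_smul_eq_nsmul, two_smul]
        abel
      have h' := smul_nonneg (by norm_num : (0 : ℝ) ≤ 2⁻¹) (e ▸ h)
      rw [smul_smul, inv_mul_cancel₀ (two_ne_zero : (2 : ℝ) ≠ 0), one_smul] at h'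
      exact sub_nonneg.1 h' 
    have hv1 : ∑ x, v x = 1 := hone
    rw [hv1, star_one, one_mul] at hcs
    refine hcs.trans ?_
    have h2 : ∀ x, star (r x * diff P p x) * (r x * diff P p x) ≤
        (R * R) • (star (diff P p x) * diff P p x) := by
      intro x
      rw [star_mul, show star (diff P p x) * star (r x) * (r x * diff P p x) =
        star (diff P p x) * (star (r x) * r x) * diff P p x by simp only [mul_assoc]]
      refine (CStarAlgebra.star_left_conjugate_le_norm_smul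
        (IsSelfAdjoint.star_mul_self _)).trans ?_
      refine smul_le_smul_of_nonneg_right ?_ (star_mul_self_nonneg _)
      rw [CStarRing.norm_star_mul_self]
      exact mul_le_mul (hr x) (hr x) (norm_nonneg _) ((norm_nonneg _).trans (hr x))
    refine (smul_le_smul_of_nonneg_left (Finset.sum_le_sum fun x _ => h2 x)
      (Nat.cast_nonneg _)).trans ?_
    rw [← Finset.smul_sum, smul_smul]
    refine (smul_le_smul_of_nonneg_right
      (show (Fintype.card (Fin 5 × Fin n) : ℝ) * (R * R) ≤ N by rw [hN]; linarith) ?_).trans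
      (le_of_eq ?_)
    · exact Finset.sum_nonneg fun x _ => star_mul_self_nonneg _
    · simp [kern, h1]
  have hpos : 0 ≤ α g (kern P 1 p) - ((N⁻¹ : ℝ) : ℂ) • 1 := by
    have h3 := smul_le_smul_of_nonneg_left hsq (inv_pos.2 hN0).le
    rw [smul_smul, inv_mul_cancel₀ hN0.ne', one_smul] at h3
    have h4 : 0 ≤ α g (kern P 1 p - N⁻¹ • 1) :=
      map_nonneg (α g) (sub_nonneg.2 h3)
    rwa [map_sub, ← Complex.coe_smul N⁻¹ (1 : F), map_smul, map_one] at h4
  refine ⟨CFC.sqrt (α g (kern P 1 p) - ((N⁻¹ : ℝ) : ℂ) • 1), ?_, ?_⟩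
  · set X := α g (kern P 1 p) - ((N⁻¹ : ℝ) : ℂ) • 1 with hX
    have h5 : ‖X‖ ≤ K + N⁻¹ := by
      refine (norm_sub_le _ _).trans (add_le_add (hK g p) ?_)
      refine (norm_smul_le _ _).trans ?_
      rcases subsingleton_or_nontrivial F with hs | hs
      · simp [Subsingleton.elim (1 : F) 0, (inv_pos.2 hN0).le]
      · simp [abs_of_pos hN0]
    have h6 : ‖CFC.sqrt X‖ * ‖CFC.sqrt X‖ = ‖X‖ := by
      rw [← CStarRing.norm_star_mul_self, (IsSelfAdjoint.of_nonneg (CFC.sqrt_nonneg X)).star_eq,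
        CFC.sqrt_mul_sqrt_self X hpos]
    nlinarith [norm_nonneg (CFC.sqrt X), sq_nonneg (‖CFC.sqrt X‖ - 1 / 2)]
  · rw [(IsSelfAdjoint.of_nonneg (CFC.sqrt_nonneg _)).star_eq, CFC.sqrt_mul_sqrt_self _ hpos]

end Vale.Agent.P095
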