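import Mathlib

/-!
P095: iterated ultrafilters on tuples of indices, limits along ultrafilters, and simultaneous
recurrence of finitely many phases.
-/

namespace Vale.Agent.P095

open Filter
open scoped Topology

/-- The iterated product of a free ultrafilter on `ℕ`. -/
noncomputable def iter : ∀ r : ℕ, Ultrafilter (Fin r → ℕ)
  | 0 => pure Fin.elim0
  | r + 1 => (hyperfilter ℕ).bind fun i =>
      (iter r).map (Fin.cons (α := fun _ => ℕ) i)

lemma mem_iter_succ {r : ℕ} {s : Set (Fin (r + 1) → ℕ)} :
    s ∈ iter (r + 1) ↔ {i | {f | Fin.cons (α := fun _ => ℕ) i f ∈ s} ∈ iter r} ∈ hyperfilter ℕ :=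
  Iff.rfl

lemma eventually_strictMono (r N : ℕ) :
    {f : Fin r → ℕ | StrictMono f ∧ ∀ j, N < f j} ∈ iter r := by
  induction r generalizing N with
  | zero => exact Filter.univ_mem' fun f => ⟨fun a => a.elim0, fun a => a.elim0⟩
  | succ r ih =>
    rw [mem_iter_succ]
    have hN : {i | N < i} ∈ hyperfilter ℕ := by
      refine mem_hyperfilter_of_finite_compl ?_
      exact (Set.finite_le_nat N).subset fun i hi => by simpa using hi
    refine Filter.mem_of_superset hN fun i hi => Filter.mem_of_superset (ih i) ?_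
    rintro f ⟨hf, hfi⟩
    refine ⟨?_, fun j => ?_⟩
    · rw [Fin.strictMono_iff_lt_succ]
      intro j
      rcases j with ⟨_ | j, hj⟩
      · show Fin.cons (α := fun _ => ℕ) i f 0 <
          Fin.cons (α := fun _ => ℕ) i f (Fin.succ ⟨0, hj⟩)
        rw [Fin.cons_zero, Fin.cons_succ]
        exact hfi _
      · exact hf (show (⟨j, by omega⟩ : Fin r) < ⟨j + 1, hj⟩ by simp [Fin.lt_def])
    · refine Fin.cases ?_ (fun j => ?_) j
      · simpa using hi
      · simpa using lt_trans hi (hfi j)

lemma map_iter {r s : ℕ} (σ : Fin s → Fin r) (hσ : StrictMono σ) :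
    (iter r).map (fun f => f ∘ σ) = iter s := by
  induction r generalizing s with
  | zero =>
    cases s with
    | zero =>
      refine Ultrafilter.ext fun t => ?_
      rw [Ultrafilter.mem_map]
      simp [iter, Subsingleton.elim _ (Fin.elim0 : Fin 0 → ℕ)]
    | succ s => exact (σ 0).elim0
  | succ r ih =>
    cases s with
    | zero =>
      refine Ultrafilter.ext fun t => ?_
      rw [Ultrafilter.mem_map]
      by_cases ht : Fin.elim0 ∈ t
      · have : t = Set.univ := Set.eq_univ_of_forall fun f => by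
          rwa [Subsingleton.elim f (Fin.elim0 : Fin 0 → ℕ)]
        rw [this, Set.preimage_univ]
        exact iff_of_true Filter.univ_mem Filter.univ_mem
      · have : t = ∅ := Set.eq_empty_of_forall_notMem fun f hf => ht (by
          rwa [Subsingleton.elim f (Fin.elim0 : Fin 0 → ℕ)] at hf)
        simp [this]
    | succ s =>
      refine Ultrafilter.ext fun t => ?_
      rw [Ultrafilter.mem_map, mem_iter_succ]
      have hpos : ∀ j : Fin s, σ j.succ ≠ 0 := fun j =>
        Fin.pos_iff_ne_zero.1 (lt_of_le_of_lt (Fin.zero_le _) (hσ j.succ_pos))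
      by_cases h0 : σ 0 = 0
      · let σ' : Fin s → Fin r := fun j => (σ j.succ).pred (hpos j)
        have hσ' : StrictMono σ' := fun a b hab => Fin.pred_lt_pred_iff.2 (hσ (Fin.succ_lt_succ_iff.2 hab))
        rw [mem_iter_succ, ← ih σ' hσ']
        simp only [Ultrafilter.mem_map, Set.preimage_ofPred_eq, Set.mem_preimage]
        have key : ∀ i (f : Fin r → ℕ), Fin.cons (α := fun _ => ℕ) i f ∘ σ =
            Fin.cons (α := fun _ => ℕ) i (f ∘ σ') := by
          intro i f
          funext j
          refine Fin.cases ?_ (fun j => ?_) j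
          · simp [h0]
          · have : σ j.succ = (σ' j).succ := (Fin.succ_pred _ _).symm
            simp [this]
        simp only [key]
      · let σ' : Fin (s + 1) → Fin r := fun j => (σ j).pred (by
          refine Fin.pos_iff_ne_zero.1 (lt_of_lt_of_le (Fin.pos_iff_ne_zero.2 h0) ?_)
          exact hσ.monotone (Fin.zero_le j))
        have hσ' : StrictMono σ' := fun a b hab => Fin.pred_lt_pred_iff.2 (hσ hab)
        rw [← ih σ' hσ']
        simp only [Ultrafilter.mem_map, Set.mem_preimage]
        have key : ∀ i (f : Fin r → ℕ), Fin.cons (α := fun _ => ℕ) i f ∘ σ = f ∘ σ' := by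
          intro i f
          funext j
          have : σ j = (σ' j).succ := (Fin.succ_pred _ _).symm
          simp [this]
        simp only [key]
        by_cases h : (fun f : Fin r → ℕ => f ∘ σ') ⁻¹' t ∈ iter r
        · refine iff_of_true ?_ h
          exact Filter.mem_of_superset Filter.univ_mem fun i _ => h
        · refine iff_of_false (fun h' => ?_) h
          obtain ⟨i, hi⟩ := Ultrafilter.nonempty_of_mem h'
          exact h hi

/-- Bounded functions converge along ultrafilters. -/
lemma exists_tendsto {I : Type*} (W : Ultrafilter I) {u : I → ℂ} {B : ℝ} (h : ∀ i, ‖u i‖ ≤ B) :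
    ∃ x, Tendsto u W (𝓝 x) := by
  obtain ⟨x, _, hx⟩ := (isCompact_closedBall (0 : ℂ) B).ultrafilter_le_nhds (W.map u) (by
    rw [Ultrafilter.coe_map]
    exact Filter.le_principal_iff.2 (Filter.mem_map.2 (Filter.univ_mem' fun i => by simpa using h i)))
  exact ⟨x, hx⟩

/-- Some common power of finitely many numbers has nonnegative real parts. -/
lemma exists_pow_re_nonneg {ι : Type*} [Fintype ι] (z : ι → ℂ) :
    ∃ k : ℕ, 0 < k ∧ ∀ t, 0 ≤ (z t ^ k).re := by
  let u : ι → ℂ := fun t => if z t = 0 then 1 else z t / (‖z t‖ : ℂ)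
  have hu : ∀ t, ‖u t‖ = 1 := by
    intro t
    by_cases h : z t = 0
    · simp [u, h]
    · simp [u, h]
  have hz : ∀ t, z t = (‖z t‖ : ℂ) * u t := by
    intro t
    by_cases h : z t = 0
    · simp [h]
    · have : (‖z t‖ : ℂ) ≠ 0 := by simpa using h
      simp only [u, if_neg h]
      field_simp
  obtain ⟨x, -, φ, hφ, hlim⟩ := (isCompact_closedBall (0 : ι → ℂ) 1).tendsto_subseq
    (x := fun n => u ^ n) (fun n => by
      rw [mem_closedBall_zero_iff, pi_norm_le_iff_of_nonneg zero_le_one]
      intro t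
      simp [hu t])
  obtain ⟨N, hN⟩ := Metric.cauchySeq_iff.1 hlim.cauchySeq 1 one_pos
  have hlt : φ N < φ (N + 1) := hφ (Nat.lt_succ_self N)
  refine ⟨φ (N + 1) - φ N, by omega, fun t => ?_⟩
  have h1 : ‖u t ^ φ (N + 1) - u t ^ φ N‖ < 1 := by
    have h := hN (N + 1) (by omega) N le_rfl
    rw [dist_eq_norm] at h
    exact lt_of_le_of_lt (norm_le_pi_norm (u ^ φ (N + 1) - u ^ φ N) t) h
  have h2 : ‖u t ^ (φ (N + 1) - φ N) - 1‖ < 1 := by
    have h3 : u t ^ φ (N + 1) - u t ^ φ N = u t ^ φ N * (u t ^ (φ (N + 1) - φ N) - 1) := by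
      rw [mul_sub, mul_one, ← pow_add, Nat.add_sub_cancel' hlt.le]
    rwa [h3, norm_mul, norm_pow, hu t, one_pow, one_mul] at h1
  have h4 : 0 ≤ (u t ^ (φ (N + 1) - φ N)).re := by
    have := (Complex.abs_re_le_norm (u t ^ (φ (N + 1) - φ N) - 1)).trans_lt h2
    rw [Complex.sub_re, Complex.one_re, abs_lt] at this
    linarith
  rw [hz t, mul_pow, ← Complex.ofReal_pow, Complex.re_ofReal_mul]
  exact mul_nonneg (by positivity) h4

end Vale.Agent.P095
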