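import Vale.Agent.P095.Diff
import Vale.Agent.P095.Iter

/-!
P095: a character of the fixed points makes the products of the twisted sums over disjoint blocks
cancel in the iterated limit.
-/

namespace Vale.Agent.P095

open Filter
open scoped Topology ComplexConjugate

universe u

variable {F : Type u} [CStarAlgebra F] {G : Type} [Group G] [Fintype G]

/-- The average over the group. -/
noncomputable def average (α : G → F →⋆ₐ[ℂ] F) : F →ₗ[ℂ] F :=
  (Fintype.card G : ℂ)⁻¹ • ∑ g, (α g).toAlgHom.toLinearMap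

/-- An action with an invariant functional, multiplicative on fixed points. -/
structure Sharp (α : G → F →⋆ₐ[ℂ] F) (φ : F →ₗ[ℂ] ℂ) : Prop where
  one : α 1 = StarAlgHom.id ℂ F
  mul : ∀ g h, α (g * h) = (α g).comp (α h)
  norm_le : ∀ x, ‖φ x‖ ≤ ‖x‖
  unit : φ 1 = 1
  inv : ∀ g x, φ (α g x) = φ x
  star : ∀ x, φ (star x) = conj (φ x)
  sharp : ∀ x y, (∀ g, α g x = x) → (∀ g, α g y = y) → φ (x * y) = φ x * φ y

variable {α : G → F →⋆ₐ[ℂ] F} {φ : F →ₗ[ℂ] ℂ}

omit [Group G] in
lemma average_apply (x : F) : average α x = (Fintype.card G : ℂ)⁻¹ • ∑ g, α g x := by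
  simp [average]

lemma Sharp.average_fixed (H : Sharp α φ) (x : F) (g : G) : α g (average α x) = average α x := by
  rw [average_apply, map_smul, map_sum]
  congr 1
  refine Fintype.sum_equiv (Equiv.mulLeft g) _ _ fun h => ?_
  simp [H.mul]

lemma Sharp.phi_average (H : Sharp α φ) (x : F) : φ (average α x) = φ x := by
  have hG : (Fintype.card G : ℂ) ≠ 0 := by exact_mod_cast Fintype.card_ne_zero
  rw [average_apply, map_smul, map_sum]
  simp [H.inv, hG]

lemma Sharp.sum_twisted (H : Sharp α φ) (X : F) :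
    ∑ h, φ (Star.star X * α h X) = (Fintype.card G : ℂ) * (conj (φ X) * φ X) := by
  have hG : (Fintype.card G : ℂ) ≠ 0 := by exact_mod_cast Fintype.card_ne_zero
  have hst : ∀ g, α g (Star.star (average α X)) = Star.star (average α X) := fun g => by
    rw [map_star, H.average_fixed]
  have e := H.sharp _ _ hst (H.average_fixed X)
  rw [H.star, H.phi_average] at e
  rw [← e, average_apply X]
  have hg : ∀ g, φ (Star.star (α g X) * ∑ h, α h X) = ∑ h, φ (Star.star X * α h X) := by
    intro g
    rw [Finset.mul_sum, map_sum]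
    refine Fintype.sum_equiv (Equiv.mulLeft g⁻¹) _ _ fun h => ?_
    rw [← H.inv g (Star.star X * α ((Equiv.mulLeft g⁻¹) h) X), map_mul (α g), map_star (α g)]
    simp [← StarAlgHom.comp_apply, ← H.mul]
  simp only [star_smul, star_sum, smul_mul_assoc, mul_smul_comm, map_smul, Finset.sum_mul,
    map_sum, hg, Finset.sum_const, Finset.card_univ, nsmul_eq_mul, smul_eq_mul, star_inv₀,
    Complex.star_def, Complex.conj_natCast]
  field_simp

variable {n : ℕ} (P : Pool α n)

/-- The members of block `r` in a tuple of copies. -/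
def pairAt {L : ℕ} (f : Fin (2 * L) → ℕ) (r : Fin L) : ℕ × ℕ :=
  (f ⟨2 * r.1, by omega⟩, f ⟨2 * r.1 + 1, by omega⟩)

lemma apart_pairAt {L : ℕ} {f : Fin (2 * L) → ℕ} (hf : Function.Injective f) {r s : Fin L}
    (hrs : r ≠ s) : Apart (pairAt f r) (pairAt f s) := by
  have h : r.1 ≠ s.1 := fun h => hrs (Fin.ext h)
  refine ⟨?_, ?_, ?_, ?_⟩ <;> simp only [pairAt] <;>
    exact fun e => by have := Fin.mk.inj (hf e); omega

lemma norm_ofFn_prod_le {k : ℕ} {B : ℝ} (hB : 0 ≤ B) (v : Fin k → F) (hv : ∀ t, ‖v t‖ ≤ B) :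
    ‖(List.ofFn v).prod‖ ≤ B ^ k := by
  induction k with
  | zero =>
    rcases subsingleton_or_nontrivial F with hs | hs
    · simp [Subsingleton.elim (1 : F) 0]
    · simp
  | succ k ih =>
    rw [List.ofFn_succ, List.prod_cons, pow_succ']
    exact (norm_mul_le _ _).trans (mul_le_mul (hv 0) (ih _ fun t => hv _) (norm_nonneg _) hB)

omit [Fintype G] in
lemma sum_star_prod (H : Sharp α φ) (h : G) : ∀ (k : ℕ) (p : Fin k → ℕ × ℕ),
    (∀ t u, t ≠ u → Apart (p t) (p u)) →
      ∑ x : Fin k → Fin 5 × Fin n,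
        star (List.ofFn fun t => diff P (p t) (x t)).prod *
          α h (List.ofFn fun t => diff P (p t) (x t)).prod =
        (List.ofFn fun t => kern P h (p t)).prod := by
  intro k
  induction k with
  | zero => intro p _; simp
  | succ k ih =>
    intro p hp
    rw [← (Fin.consEquiv fun _ => Fin 5 × Fin n).sum_comp, Fintype.sum_prod_type]
    have ih' := ih (fun t => p t.succ) fun t u htu => hp _ _ (fun e => htu (Fin.succ_inj.1 e))
    rw [List.ofFn_succ (f := fun t => kern P h (p t)), List.prod_cons, kern, Finset.sum_mul, ← ih']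
    refine Finset.sum_congr rfl fun x0 _ => ?_
    rw [Finset.mul_sum]
    refine Finset.sum_congr rfl fun x _ => ?_
    simp only [Fin.consEquiv_apply, List.ofFn_succ, Fin.cons_zero, Fin.cons_succ, List.prod_cons,
      star_mul, map_mul]
    set R := (List.ofFn fun t => diff P (p t.succ) (x t)).prod with hR
    set D := diff P (p 0) x0 with hD
    have hc : Commute (star R) (star D * α h D) := by
      have h' : Commute R (star (α h D) * D) := by
        refine Commute.list_prod_left _ _ fun z hz => ?_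
        obtain ⟨t, rfl⟩ := List.mem_ofFn.1 hz
        have c1 := commute_diff P (hp t.succ 0 (Fin.succ_ne_zero t)) 1 h (x t) x0
        have c2 := commute_diff P (hp t.succ 0 (Fin.succ_ne_zero t)) 1 1 (x t) x0
        simp only [H.one, StarAlgHom.coe_id, id_eq] at c1 c2
        exact c1.2.mul_right c2.1
      simpa [star_mul] using h'.star_star
    calc star R * star D * (α h D * α h R) = star R * (star D * α h D) * α h R := by
          simp only [mul_assoc]
      _ = star D * α h D * (star R * α h R) := by rw [hc.eq, mul_assoc]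

/- A product with a difference tends to zero. -/
omit [Fintype G] in
lemma tendsto_phi_prod (H : Sharp α φ) {L k : ℕ} (b : Fin (k + 1) → Fin L)
    (hb : Function.Injective b) (x : Fin (k + 1) → Fin 5 × Fin n) :
    Tendsto (fun f : Fin (2 * L) → ℕ =>
      φ (List.ofFn fun t => diff P (pairAt f (b t)) (x t)).prod) (iter (2 * L)) (𝓝 0) := by
  obtain ⟨m, hm⟩ : ∃ m, 2 * L = m + 1 := ⟨2 * L - 1, by have := (b 0).2; omega⟩
  let q : Fin m := ⟨2 * (b 0).1, by have := (b 0).2; omega⟩
  let τ : Fin (2 * L) → Fin m := fun j => q.predAbove (Fin.cast hm j)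
  let σ₁ : Fin m → Fin (2 * L) := fun j => Fin.cast hm.symm (q.succ.succAbove j)
  let σ₂ : Fin m → Fin (2 * L) := fun j => Fin.cast hm.symm (q.castSucc.succAbove j)
  let rest : (Fin (2 * L) → ℕ) → F := fun f =>
    (List.ofFn fun t => diff P (pairAt f (b t.succ)) (x t.succ)).prod
  let u : (Fin (2 * L) → ℕ) → ℂ := fun f => φ (word P (pairAt f (b 0)).1 (x 0) * rest f)
  let v : (Fin m → ℕ) → ℂ := fun g => u (g ∘ τ)
  have hkey : ∀ f, φ (List.ofFn fun t => diff P (pairAt f (b t)) (x t)).prod =
      v (f ∘ σ₁) - v (f ∘ σ₂) := by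
    intro f
    have e1 : ∀ j : Fin (2 * L), Fin.cast hm j ≠ q.succ → σ₁ (τ j) = j := fun j hj => by
      simp [σ₁, τ, Fin.succ_succAbove_predAbove hj]
    have e2 : ∀ j : Fin (2 * L), Fin.cast hm j ≠ q.castSucc → σ₂ (τ j) = j := fun j hj => by
      simp [σ₂, τ, Fin.succAbove_predAbove hj]
    have hrest : ∀ σ : Fin m → Fin (2 * L),
        (∀ j, Fin.cast hm j ≠ q.succ → Fin.cast hm j ≠ q.castSucc → σ (τ j) = j) →
          rest (f ∘ σ ∘ τ) = rest f := by
      intro σ hσ
      have hne : ∀ t : Fin k, (b t.succ).1 ≠ (b 0).1 := fun t e =>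
        Fin.succ_ne_zero t (hb (Fin.ext e))
      simp only [rest]
      congr 2
      funext t
      have := hne t
      congr 1
      refine Prod.ext ?_ ?_ <;>
        simp only [pairAt, Function.comp_apply] <;> congr 1 <;> apply hσ <;>
        simp [q, Fin.ext_iff] <;> omega
    have hp0 : (⟨2 * (b 0).1, by omega⟩ : Fin (2 * L)) = Fin.cast hm.symm q.castSucc := rfl
    have h1 : v (f ∘ σ₁) = φ (word P (pairAt f (b 0)).1 (x 0) * rest f) := by
      show u (f ∘ σ₁ ∘ τ) = _
      simp only [u]
      rw [hrest σ₁ fun j hj _ => e1 j hj]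
      congr 3
      simp only [pairAt, Function.comp_apply]
      rw [e1 _ (by simp [q, Fin.ext_iff])]
    have h2 : v (f ∘ σ₂) = φ (word P (pairAt f (b 0)).2 (x 0) * rest f) := by
      show u (f ∘ σ₂ ∘ τ) = _
      simp only [u]
      rw [hrest σ₂ fun j _ hj => e2 j hj]
      congr 3
      simp only [pairAt, Function.comp_apply]
      congr 1
      simp [hp0, σ₂, τ]
      ext
      simp [q]
    rw [h1, h2, List.ofFn_succ, List.prod_cons, ← map_sub, ← sub_mul]
    rfl
  have hbound : ∀ g, ‖v g‖ ≤
      (1 + P.bound) ^ 3 * 8 * (2 * (1 + P.bound) ^ 3) ^ k := by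
    intro g
    refine (H.norm_le _).trans ((norm_mul_le _ _).trans ?_)
    set w := word P (pairAt (g ∘ τ) (b 0)).1 (x 0)
    have h0 : 0 ≤ P.bound := (norm_nonneg _).trans (P.norm_le 0 (x 0).2).1
    have hw : ‖w‖ ≤ (1 + P.bound) ^ 3 * 8 := by
      have := norm_word_le P (pairAt (g ∘ τ) (b 0)).1 (x 0)
      have h1 : 0 ≤ (1 + P.bound) ^ 3 := by positivity
      linarith
    refine mul_le_mul hw ?_ (norm_nonneg _) (by positivity)
    exact norm_ofFn_prod_le (by positivity) _ fun t => norm_diff_le P _ _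
  obtain ⟨c, hc⟩ := exists_tendsto (iter m) hbound
  have hmap : ∀ σ : Fin m → Fin (2 * L), StrictMono σ →
      Tendsto (fun f => v (f ∘ σ)) (iter (2 * L)) (𝓝 c) := by
    intro σ hσ
    have := map_iter σ hσ
    rw [← this, Ultrafilter.coe_map] at hc
    exact Filter.tendsto_map'_iff.1 hc
  have := (hmap σ₁ fun a a' h => (Fin.strictMono_succAbove q.succ h : _)).sub
    (hmap σ₂ fun a a' h => (Fin.strictMono_succAbove q.castSucc h : _))
  rw [sub_self] at this
  exact this.congr fun f => (hkey f).symm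

/-- The cancellation for products over distinct blocks. -/
theorem tendsto_sum_kern (H : Sharp α φ) {L k : ℕ} (b : Fin (k + 1) → Fin L)
    (hb : Function.Injective b) :
    Tendsto (fun f : Fin (2 * L) → ℕ =>
      ∑ h, φ (List.ofFn fun t => kern P h (pairAt f (b t))).prod) (iter (2 * L)) (𝓝 0) := by
  have hz : Tendsto (fun f : Fin (2 * L) → ℕ => ∑ x : Fin (k + 1) → Fin 5 × Fin n,
      (Fintype.card G : ℂ) * (conj (φ (List.ofFn fun t => diff P (pairAt f (b t)) (x t)).prod) *
        φ (List.ofFn fun t => diff P (pairAt f (b t)) (x t)).prod)) (iter (2 * L)) (𝓝 0) := by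
    have := tendsto_finsetSum Finset.univ fun (x : Fin (k + 1) → Fin 5 × Fin n) _ =>
      ((tendsto_phi_prod P H b hb x).star.mul (tendsto_phi_prod P H b hb x)).const_mul
        (Fintype.card G : ℂ)
    simpa using this
  refine hz.congr' (Filter.mem_of_superset (eventually_strictMono (2 * L) 0) fun f hf => ?_)
  simp only [Set.mem_ofPred_eq]
  simp_rw [← H.sum_twisted]
  rw [Finset.sum_comm]
  refine Finset.sum_congr rfl fun h _ => ?_
  rw [← map_sum, sum_star_prod P H h _ _ fun t u htu => apart_pairAt hf.1.injective (hb.ne htu)]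

end Vale.Agent.P095
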