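import Vale.Agent.P095.Ultra
import Vale.Agent.P095.Sharp
import Vale.Agent.P095.Lower

/-!
P095: averages of the twisted sums over many blocks; they commute in the ultrapower, the diagonal
ones are bounded below, and the moments of the twisted ones cancel.
-/

namespace Vale.Agent.P095

open Filter
open scoped Topology BoundedContinuousFunction

universe u

variable {F : Type u} [CStarAlgebra F] {G : Type} [Group G] [Fintype G]
  {α : G → F →⋆ₐ[ℂ] F} {φ : F →ₗ[ℂ] ℂ} {n : ℕ} (P : Pool α n)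

/-- The ultrafilter on the index set: a number of blocks, then an iterated limit. -/
noncomputable def blockLimit : Ultrafilter Index :=
  (hyperfilter ℕ).bind fun L => (iter (2 * L)).map (Sigma.mk L)

lemma mem_blockLimit {s : Set Index} :
    s ∈ blockLimit ↔ {L | {f | (⟨L, f⟩ : Index) ∈ s} ∈ iter (2 * L)} ∈ hyperfilter ℕ :=
  Iff.rfl

lemma eventually_good (N : ℕ) :
    ∀ᶠ i in (blockLimit : Filter Index), N ≤ i.1 ∧ Function.Injective i.2 := by
  have hN : {L | N ≤ L} ∈ hyperfilter ℕ := by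
    refine mem_hyperfilter_of_finite_compl ?_
    exact (Set.finite_lt_nat N).subset fun i hi => by simpa using hi
  show {i : Index | N ≤ i.1 ∧ Function.Injective i.2} ∈ blockLimit
  rw [mem_blockLimit]
  exact Filter.mem_of_superset hN fun L hL =>
    Filter.mem_of_superset (eventually_strictMono (2 * L) 0) fun f hf => ⟨hL, hf.1.injective⟩

/-- The average of a twisted sum over the blocks of a tuple. -/
noncomputable def blockAvg (g h : G) (i : Index) : F :=
  (i.1 : ℂ)⁻¹ • ∑ r : Fin i.1, α g (kern P h (pairAt i.2 r))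

lemma norm_avg_le {L : ℕ} {B : ℝ} (hB : 0 ≤ B) (v : Fin L → F) (hv : ∀ r, ‖v r‖ ≤ B) :
    ‖(L : ℂ)⁻¹ • ∑ r, v r‖ ≤ B := by
  rcases Nat.eq_zero_or_pos L with rfl | hL
  · simp [hB]
  refine (norm_smul_le _ _).trans ?_
  rw [norm_inv, Complex.norm_natCast]
  have h : ‖∑ r, v r‖ ≤ L * B := (norm_sum_le _ _).trans
    ((Finset.sum_le_sum fun r _ => hv r).trans (by simp))
  rw [inv_mul_le_iff₀ (by exact_mod_cast hL)]
  exact h

omit [Fintype G] in
lemma commute_kern (hmul : ∀ g h, α (g * h) = (α g).comp (α h)) {p q : ℕ × ℕ} (hpq : Apart p q)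
    (g h g' h' : G) :
    Commute (α g (kern P h p)) (α g' (kern P h' q)) ∧
      Commute (α g (kern P h p)) (star (α g' (kern P h' q))) := by
  have e : ∀ g h p x, α g (star (diff P p x) * α h (diff P p x)) =
      star (α g (diff P p x)) * α (g * h) (diff P p x) := by
    intro g h p x
    rw [map_mul, map_star, hmul, StarAlgHom.comp_apply]
  constructor
  · simp only [kern, map_sum, e]
    refine Commute.sum_left _ _ _ fun x _ => Commute.sum_right _ _ _ fun z _ => ?_
    exact Commute.mul_left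
      ((commute_diff' P hpq g g' x z).2.mul_right (commute_diff' P hpq g (g' * h') x z).1)
      ((commute_diff P hpq (g * h) g' x z).2.mul_right (commute_diff P hpq (g * h) (g' * h') x z).1)
  · simp only [kern, map_sum, e, star_sum, star_mul, star_star]
    refine Commute.sum_left _ _ _ fun x _ => Commute.sum_right _ _ _ fun z _ => ?_
    exact Commute.mul_left
      ((commute_diff' P hpq g (g' * h') x z).2.mul_right (commute_diff' P hpq g g' x z).1)
      ((commute_diff P hpq (g * h) (g' * h') x z).2.mul_right (commute_diff P hpq (g * h) g' x z).1)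

lemma norm_commutator_avg_le {L : ℕ} {B : ℝ} (X Y : Fin L → F) (hX : ∀ r, ‖X r‖ ≤ B)
    (hY : ∀ r, ‖Y r‖ ≤ B) (hc : ∀ r s, r ≠ s → Commute (X r) (Y s)) :
    ‖((L : ℂ)⁻¹ • ∑ r, X r) * ((L : ℂ)⁻¹ • ∑ r, Y r) -
      ((L : ℂ)⁻¹ • ∑ r, Y r) * ((L : ℂ)⁻¹ • ∑ r, X r)‖ ≤ (L : ℝ)⁻¹ * (2 * B * B) := by
  rcases Nat.eq_zero_or_pos L with rfl | hL
  · simp
  have e : ((L : ℂ)⁻¹ • ∑ r, X r) * ((L : ℂ)⁻¹ • ∑ r, Y r) -
      ((L : ℂ)⁻¹ • ∑ r, Y r) * ((L : ℂ)⁻¹ • ∑ r, X r) =
      ((L : ℂ)⁻¹ * (L : ℂ)⁻¹) • ∑ r, (X r * Y r - Y r * X r) := by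
    simp only [smul_mul_smul_comm, ← smul_sub, Finset.sum_mul, Finset.mul_sum]
    congr 1
    rw [Finset.sum_comm, ← Finset.sum_sub_distrib]
    refine Finset.sum_congr rfl fun r _ => ?_
    rw [← Finset.sum_sub_distrib, Finset.sum_eq_single r]
    · intro s _ hs
      rw [(hc r s hs.symm).eq, sub_self]
    · simp
  rw [e]
  refine (norm_smul_le _ _).trans ?_
  rw [norm_mul, norm_inv, Complex.norm_natCast, mul_assoc]
  refine mul_le_mul_of_nonneg_left ?_ (by positivity)
  rw [inv_mul_le_iff₀ (by exact_mod_cast hL)]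
  refine (norm_sum_le _ _).trans ((Finset.sum_le_sum fun r _ => ?_).trans
    (le_of_eq (by rw [Finset.sum_const, Finset.card_univ, Fintype.card_fin, nsmul_eq_mul])))
  refine (norm_sub_le _ _).trans ?_
  have h0 : 0 ≤ B := (norm_nonneg _).trans (hX r)
  have h1 := (norm_mul_le (X r) (Y r)).trans (mul_le_mul (hX r) (hY r) (norm_nonneg _) h0)
  have h2 := (norm_mul_le (Y r) (X r)).trans (mul_le_mul (hY r) (hX r) (norm_nonneg _) h0)
  linarith

lemma sum_pow_ofFn {R : Type*} [Semiring R] {L : ℕ} (v : Fin L → R) (k : ℕ) :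
    (∑ r, v r) ^ k = ∑ b : Fin k → Fin L, (List.ofFn fun t => v (b t)).prod := by
  induction k with
  | zero => simp
  | succ k ih =>
    rw [pow_succ', ih, Finset.sum_mul, ← (Fin.consEquiv fun _ => Fin L).sum_comp,
      Fintype.sum_prod_type]
    refine Finset.sum_congr rfl fun r _ => ?_
    rw [Finset.mul_sum]
    simp [Fin.consEquiv]

/-- Moments of the averaged twisted sums cancel. -/
theorem tendsto_moment (H : Sharp α φ) (k : ℕ) :
    Tendsto (fun i => ∑ h, φ (blockAvg P 1 h i ^ (k + 1))) (blockLimit : Filter Index) (𝓝 0) := by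
  obtain ⟨K, hK0, hK⟩ := exists_kern_bound P
  set C : ℝ := (Fintype.card G : ℝ) * K ^ (k + 1) with hC
  have hC0 : 0 ≤ C := mul_nonneg (Nat.cast_nonneg _) (pow_nonneg hK0 _)
  rw [Metric.tendsto_nhds]
  intro ε hε
  have hratio : Tendsto (fun L : ℕ => C * (1 - (((L - (k + 1) : ℕ) : ℝ) / L) ^ (k + 1))) atTop
      (𝓝 0) := by
    have h1 : Tendsto (fun L : ℕ => ((L - (k + 1) : ℕ) : ℝ) / L) atTop (𝓝 1) := by
      have h2 := ((tendsto_const_div_atTop_nhds_zero_nat ((k + 1 : ℕ) : ℝ))).const_sub 1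
      rw [sub_zero] at h2
      refine h2.congr' (Filter.eventually_atTop.2 ⟨k + 1, fun L hL => ?_⟩)
      have : (L : ℝ) ≠ 0 := by exact_mod_cast (show L ≠ 0 by omega)
      show _ = ((L - (k + 1) : ℕ) : ℝ) / L
      rw [Nat.cast_sub hL, sub_div, div_self this]
    have h3 := ((h1.pow (k + 1)).const_sub 1).const_mul C
    simpa using h3
  obtain ⟨N, hN⟩ := Filter.eventually_atTop.1 (hratio.eventually (eventually_lt_nhds (half_pos hε)))
  show {i : Index | dist (∑ h, φ (blockAvg P 1 h i ^ (k + 1))) 0 < ε} ∈ blockLimit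
  rw [mem_blockLimit]
  have hbig : {L | max N 1 ≤ L} ∈ hyperfilter ℕ :=
    mem_hyperfilter_of_finite_compl ((Set.finite_lt_nat (max N 1)).subset fun i hi => not_le.1 (show ¬ max N 1 ≤ i from hi))
  refine Filter.mem_of_superset hbig fun L hL => ?_
  have hall : ∀ᶠ f in (iter (2 * L) : Filter (Fin (2 * L) → ℕ)),
      ∀ b : Fin (k + 1) → Fin L, Function.Injective b →
        ‖∑ h, φ (List.ofFn fun t => kern P h (pairAt f (b t))).prod‖ < ε / 2 := by
    refine eventually_all.2 fun b => ?_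
    by_cases hb : Function.Injective b
    · filter_upwards [Metric.tendsto_nhds.1 (tendsto_sum_kern P H b hb) (ε / 2) (half_pos hε)]
        with f hf _
      rwa [dist_zero_right] at hf
    · exact Filter.Eventually.of_forall fun f h => absurd h hb
  refine Filter.mem_of_superset hall fun f hf => ?_
  simp only [Set.mem_ofPred_eq, dist_zero_right]
  have hL1 : 1 ≤ L := le_trans (le_max_right _ _) hL
  have hLr : (0 : ℝ) < L := by exact_mod_cast hL1
  set S : (Fin (k + 1) → Fin L) → ℂ := fun b =>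
    ∑ h, φ (List.ofFn fun t => kern P h (pairAt f (b t))).prod with hS
  have e : ∑ h, φ (blockAvg P 1 h ⟨L, f⟩ ^ (k + 1)) = ((L : ℂ)⁻¹) ^ (k + 1) * ∑ b, S b := by
    simp only [blockAvg, H.one, StarAlgHom.coe_id, id_eq, smul_pow, map_smul, smul_eq_mul,
      sum_pow_ofFn, map_sum, hS, ← Finset.mul_sum]
    rw [Finset.sum_comm]
  rw [e, norm_mul, norm_pow, norm_inv, Complex.norm_natCast]
  have hb1 : ∀ b, ‖S b‖ ≤ C := by
    intro b
    refine (norm_sum_le _ _).trans ((Finset.sum_le_sum fun h _ => ?_).trans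
      (le_of_eq (by rw [Finset.sum_const, Finset.card_univ, nsmul_eq_mul])))
    refine (H.norm_le _).trans (norm_ofFn_prod_le hK0 _ fun t => ?_)
    simpa [H.one] using hK 1 h (pairAt f (b t))
  classical
  have hsum : ‖∑ b, S b‖ ≤ (L : ℝ) ^ (k + 1) * (ε / 2) +
      ((L : ℝ) ^ (k + 1) - (L.descFactorial (k + 1) : ℝ)) * C := by
    refine (norm_sum_le _ _).trans ?_
    rw [← Finset.sum_filter_add_sum_filter_not Finset.univ
      (fun b : Fin (k + 1) → Fin L => Function.Injective b)]
    have hinj : (Finset.univ.filter fun b : Fin (k + 1) → Fin L => Function.Injective b).card =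
        L.descFactorial (k + 1) := by
      rw [← Fintype.card_subtype,
        Fintype.card_congr (Equiv.subtypeInjectiveEquivEmbedding (Fin (k + 1)) (Fin L)),
        Fintype.card_embedding_eq, Fintype.card_fin, Fintype.card_fin]
    have hcard := Finset.card_filter_add_card_filter_not (s := Finset.univ)
      (fun b : Fin (k + 1) → Fin L => Function.Injective b)
    rw [hinj, Finset.card_univ, Fintype.card_fun, Fintype.card_fin, Fintype.card_fin] at hcard
    refine add_le_add ?_ ?_
    · refine (Finset.sum_le_sum (g := fun _ => ε / 2) fun b hb =>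
        (hf b (Finset.mem_filter.1 hb).2).le).trans ?_
      rw [Finset.sum_const, hinj, nsmul_eq_mul]
      refine mul_le_mul_of_nonneg_right ?_ (by positivity)
      exact_mod_cast Nat.descFactorial_le_pow L (k + 1)
    · refine (Finset.sum_le_sum (g := fun _ => C) fun b _ => hb1 b).trans ?_
      rw [Finset.sum_const, nsmul_eq_mul]
      refine mul_le_mul_of_nonneg_right (le_of_eq ?_) hC0
      rw [eq_sub_iff_add_eq, add_comm]
      exact_mod_cast hcard
  have hdesc : (((L - (k + 1) : ℕ) : ℝ) / L) ^ (k + 1) ≤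
      (L.descFactorial (k + 1) : ℝ) / (L : ℝ) ^ (k + 1) := by
    rw [div_pow]
    refine div_le_div_of_nonneg_right ?_ (by positivity)
    have h1 : (L - (k + 1)) ^ (k + 1) ≤ L.descFactorial (k + 1) :=
      le_trans (Nat.pow_le_pow_left (by omega) _) (Nat.pow_sub_le_descFactorial L (k + 1))
    exact_mod_cast h1
  have hNL := hN L (le_trans (le_max_left _ _) hL)
  calc ((L : ℝ)⁻¹) ^ (k + 1) * ‖∑ b, S b‖
      ≤ ((L : ℝ)⁻¹) ^ (k + 1) * ((L : ℝ) ^ (k + 1) * (ε / 2) +
          ((L : ℝ) ^ (k + 1) - (L.descFactorial (k + 1) : ℝ)) * C) :=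
        mul_le_mul_of_nonneg_left hsum (by positivity)
    _ = ε / 2 + C * (1 - (L.descFactorial (k + 1) : ℝ) / (L : ℝ) ^ (k + 1)) := by
        have : (L : ℝ) ^ (k + 1) ≠ 0 := by positivity
        rw [inv_pow]
        field_simp
    _ < ε := by nlinarith [mul_le_mul_of_nonneg_left hdesc hC0]

end Vale.Agent.P095
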