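import Vale.Agent.P095.Statement
import Vale.Agent.P101.DimDrop.Main

/-!
P095: from a fixed pair with the dimension drop relations in any realisation of the central sequence
algebra to the statement written on representatives.
-/

namespace Vale.Agent.P095

open Filter Vale.Agent.P101
open scoped Topology BoundedContinuousFunction

universe u

theorem exists_isFixedHomModAnn {A : Type} [NonUnitalCStarAlgebra A] {w : Ultrafilter ℕ}
    {G : Type} (α : G → A ≃⋆ₐ[ℂ] A) {F : Type u} [CStarAlgebra F]
    (π : centralSeq (w : Filter ℕ) (Unitization ℂ A) →⋆ₐ[ℂ] F)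
    (hπs : Function.Surjective π)
    (hπ : ∀ f, π f = 0 ↔ AnnNull (w : Filter ℕ) (f : ℕ →ᵇ Unitization ℂ A))
    (E : StarSubalgebra ℂ F) [CStarAlgebra E] (hE : Nonempty (ZTwoThree →⋆ₐ[ℂ] E))
    (hfix : ∀ (g : G) (f : centralSeq (w : Filter ℕ) (Unitization ℂ A)), π f ∈ E →
      ∀ a : A, Tendsto (fun n => (unitMap (α g) (f.1 n) - f.1 n) * (a : Unitization ℂ A))
        (w : Filter ℕ) (𝓝 0)) :
    ∃ φ : ZTwoThree → centralSeq (w : Filter ℕ) (Unitization ℂ A),
      IsFixedHomModAnn (w : Filter ℕ) α φ := by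
  obtain ⟨Φ⟩ := hE
  choose lift hlift using hπs
  have e : ∀ {a b : centralSeq (w : Filter ℕ) (Unitization ℂ A)}, π a = π b → ∀ x : A,
      Tendsto (fun n => (a.1 n - b.1 n) * (x : Unitization ℂ A)) (w : Filter ℕ) (𝓝 0) := by
    intro a b hab
    exact (hπ (a - b)).1 (by rw [map_sub, hab, sub_self])
  refine ⟨fun f => lift (Φ f : F), ⟨fun f hf => ?_, fun f g h hh => ?_, fun f g h hh => ?_,
    fun c f h hh => ?_, fun f h hh => ?_, fun g f => ?_⟩⟩
  · have hf' : f = 1 := Subtype.ext (ContinuousMap.ext hf)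
    exact e (b := 1) (by rw [hlift, hf', map_one, map_one]; rfl)
  · have hh' : h = f + g := Subtype.ext (ContinuousMap.ext hh)
    exact e (b := lift (Φ f : F) + lift (Φ g : F))
      (by rw [map_add, hlift, hlift, hlift, hh', map_add]; rfl)
  · have hh' : h = f * g := Subtype.ext (ContinuousMap.ext hh)
    exact e (b := lift (Φ f : F) * lift (Φ g : F))
      (by rw [map_mul, hlift, hlift, hlift, hh', map_mul]; rfl)
  · have hh' : h = c • f := Subtype.ext (ContinuousMap.ext hh)
    exact e (b := c • lift (Φ f : F)) (by rw [map_smul, hlift, hlift, hh', map_smul]; rfl)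
  · have hh' : h = star f := Subtype.ext (ContinuousMap.ext hh)
    exact e (b := star (lift (Φ f : F))) (by rw [map_star, hlift, hlift, hh', map_star]; rfl)
  · exact hfix g _ (by rw [hlift]; exact (Φ f).2)

end Vale.Agent.P095
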