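import Vale.Agent.P101.Defs
import Vale.Agent.P101.ZTwoThree

/-!
P095: the vocabulary of the statement. Central sequences live in the unitization, and a sequence is
zero in the central sequence algebra of a possibly nonunital algebra when it annihilates it.
-/

namespace Vale.Agent.P095

open Filter Vale.Agent.P101
open scoped Topology BoundedContinuousFunction

variable {A : Type} [NonUnitalCStarAlgebra A]

/-- The sequence `f` in the unitization annihilates `A` along the filter. -/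
def AnnNull (w : Filter ℕ) (f : ℕ →ᵇ Unitization ℂ A) : Prop :=
  ∀ a : A, Tendsto (fun n => f n * (a : Unitization ℂ A)) w (𝓝 0)

/-- The extension of an automorphism to the unitization. -/
noncomputable def unitMap (e : A ≃⋆ₐ[ℂ] A) : Unitization ℂ A →⋆ₐ[ℂ] Unitization ℂ A :=
  Unitization.starMap (e : A →⋆ₙₐ[ℂ] A)

/-- `φ` induces a unital *-homomorphism from `Z(2,3)` into the fixed algebra of the central sequences
modulo those annihilating `A`. -/
structure IsFixedHomModAnn (w : Filter ℕ) {G : Type} (α : G → A ≃⋆ₐ[ℂ] A)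
    (φ : ZTwoThree → centralSeq w (Unitization ℂ A)) : Prop where
  one : ∀ f : ZTwoThree, (∀ t, f.1 t = 1) → ∀ a : A,
    Tendsto (fun n => ((φ f).1 n - 1) * (a : Unitization ℂ A)) w (𝓝 0)
  add : ∀ f g h : ZTwoThree, (∀ t, h.1 t = f.1 t + g.1 t) → ∀ a : A,
    Tendsto (fun n => ((φ h).1 n - ((φ f).1 n + (φ g).1 n)) * (a : Unitization ℂ A)) w (𝓝 0)
  mul : ∀ f g h : ZTwoThree, (∀ t, h.1 t = f.1 t * g.1 t) → ∀ a : A,
    Tendsto (fun n => ((φ h).1 n - (φ f).1 n * (φ g).1 n) * (a : Unitization ℂ A)) w (𝓝 0)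
  smul : ∀ (c : ℂ) (f h : ZTwoThree), (∀ t, h.1 t = c • f.1 t) → ∀ a : A,
    Tendsto (fun n => ((φ h).1 n - c • (φ f).1 n) * (a : Unitization ℂ A)) w (𝓝 0)
  star_map : ∀ f h : ZTwoThree, (∀ t, h.1 t = star (f.1 t)) → ∀ a : A,
    Tendsto (fun n => ((φ h).1 n - star ((φ f).1 n)) * (a : Unitization ℂ A)) w (𝓝 0)
  fixed : ∀ (g : G) (f : ZTwoThree) (a : A),
    Tendsto (fun n => (unitMap (α g) ((φ f).1 n) - (φ f).1 n) * (a : Unitization ℂ A)) w (𝓝 0)

end Vale.Agent.P095
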