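import Vale.Agent.P101.Quotient

/-!
P095, block B1: the action induced on the central sequence algebra by a finite group of automorphisms,
its fixed algebra as a C*-algebra, lifts of fixed classes by exactly invariant central sequences,
and commuting copies inside the fixed algebra.
-/

namespace Vale.Agent.P095

open Filter Vale.Agent.P101
open scoped Topology BoundedContinuousFunction

universe u

variable {A : Type u} [CStarAlgebra A] {G : Type*} [Group G] (α : G →* (A ≃⋆ₐ[ℂ] A))

/-- The pointwise action on bounded sequences. -/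
noncomputable def seqAct (g : G) : (ℕ →ᵇ A) →⋆ₐ[ℂ] (ℕ →ᵇ A) where
  toFun f := BoundedContinuousFunction.ofNormedAddCommGroupDiscrete (fun n => α g (f n)) ‖f‖
    fun n => (StarAlgEquiv.norm_map (α g) (f n)).trans_le (f.norm_coe_le_norm n)
  map_one' := by ext n; simp
  map_mul' f h := by ext n; simp
  map_zero' := by ext n; simp
  map_add' f h := by ext n; simp
  commutes' c := by ext n; simp [Algebra.algebraMap_eq_smul_one]
  map_star' f := by ext n; simp [map_star]

@[simp] theorem seqAct_apply (g : G) (f : ℕ →ᵇ A) (n : ℕ) : seqAct α g f n = α g (f n) := rfl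

theorem seqAct_mem (w : Ultrafilter ℕ) (g : G) {f : ℕ →ᵇ A}
    (hf : f ∈ centralSeq (w : Filter ℕ) A) : seqAct α g f ∈ centralSeq (w : Filter ℕ) A := by
  intro a
  have h := tendsto_zero_iff_norm_tendsto_zero.1 (hf ((α g).symm a))
  refine tendsto_zero_iff_norm_tendsto_zero.2 (h.congr fun n => ?_)
  rw [← StarAlgEquiv.norm_map (α g) (f n * (α g).symm a - (α g).symm a * f n)]
  simp [map_sub, map_mul]

variable (w : Ultrafilter ℕ)

noncomputable local instance : CStarAlgebra (centralSeq (w : Filter ℕ) A) :=
  StarSubalgebra.cstarAlgebra _ (h_closed := isClosed_centralSeq w)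

/-- The pointwise action on central sequences. -/
noncomputable def centralAct (g : G) :
    centralSeq (w : Filter ℕ) A →⋆ₐ[ℂ] centralSeq (w : Filter ℕ) A where
  toFun f := ⟨seqAct α g f, seqAct_mem α w g f.2⟩
  map_one' := Subtype.ext (map_one _)
  map_mul' _ _ := Subtype.ext (map_mul _ _ _)
  map_zero' := Subtype.ext (map_zero _)
  map_add' _ _ := Subtype.ext (map_add _ _ _)
  commutes' c := Subtype.ext ((seqAct α g).commutes' c)
  map_star' _ := Subtype.ext (map_star _ _)

theorem centralAct_apply (g : G) (f : centralSeq (w : Filter ℕ) A) (n : ℕ) :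
    (centralAct α w g f : ℕ →ᵇ A) n = α g ((f : ℕ →ᵇ A) n) := rfl

theorem centralAct_null (g : G) {f : centralSeq (w : Filter ℕ) A} (hf : f ∈ nullIdeal w) :
    centralAct α w g f ∈ nullIdeal w := by
  rw [mem_nullIdeal, IsNull, tendsto_zero_iff_norm_tendsto_zero] at hf ⊢
  exact hf.congr fun n => (StarAlgEquiv.norm_map (α g) _).symm

/-- The action on the central sequence algebra. -/
noncomputable def quotAct (g : G) : CentralQuot (A := A) w →⋆ₐ[ℂ] CentralQuot (A := A) w :=
  { Ideal.Quotient.liftₐ (nullIdeal w)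
      ((quotHom (nullIdeal (A := A) w)).toAlgHom.comp (centralAct α w g).toAlgHom)
      (fun _ hf => Ideal.Quotient.eq_zero_iff_mem.2 (centralAct_null α w g hf)) with
    map_star' := fun x => by
      obtain ⟨f, rfl⟩ := Ideal.Quotient.mk_surjective x
      exact congrArg (quotHom (nullIdeal (A := A) w)) (map_star (centralAct α w g) f)
        |>.trans (map_star (quotHom (nullIdeal (A := A) w)) _) }

theorem quotAct_mk (g : G) (f : centralSeq (w : Filter ℕ) A) :
    quotAct α w g (Ideal.Quotient.mk (nullIdeal w) f)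
      = Ideal.Quotient.mk (nullIdeal w) (centralAct α w g f) := rfl

theorem quotAct_one_apply (x : CentralQuot (A := A) w) : quotAct α w 1 x = x := by
  obtain ⟨f, rfl⟩ := Ideal.Quotient.mk_surjective x
  rw [quotAct_mk]
  congr 1
  apply Subtype.ext
  ext n
  simp [centralAct_apply]

theorem quotAct_mul_apply (g h : G) (x : CentralQuot (A := A) w) :
    quotAct α w (g * h) x = quotAct α w g (quotAct α w h x) := by
  obtain ⟨f, rfl⟩ := Ideal.Quotient.mk_surjective x
  rw [quotAct_mk, quotAct_mk, quotAct_mk]
  congr 1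
  apply Subtype.ext
  ext n
  simp [centralAct_apply]

theorem quotAct_one : quotAct α w 1 = StarAlgHom.id ℂ (CentralQuot (A := A) w) :=
  StarAlgHom.ext (quotAct_one_apply α w)

theorem quotAct_mul (g h : G) : quotAct α w (g * h) = (quotAct α w g).comp (quotAct α w h) :=
  StarAlgHom.ext (quotAct_mul_apply α w g h)

/-- The fixed algebra of the central sequence algebra. -/
def fixedQuot : StarSubalgebra ℂ (CentralQuot (A := A) w) where
  carrier := {x | ∀ g, quotAct α w g x = x}
  mul_mem' hx hy g := by rw [map_mul, hx g, hy g]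
  add_mem' hx hy g := by rw [map_add, hx g, hy g]
  algebraMap_mem' c g := AlgHomClass.commutes _ c
  star_mem' hx g := by rw [map_star, hx g]

theorem mem_fixedQuot {x : CentralQuot (A := A) w} :
    x ∈ fixedQuot α w ↔ ∀ g, quotAct α w g x = x := Iff.rfl

set_option synthInstance.maxHeartbeats 100000 in
theorem isClosed_fixedQuot :
    IsClosed (fixedQuot α w : Set (CentralQuot (A := A) w)) := by
  have h : (fixedQuot α w : Set (CentralQuot (A := A) w)) = ⋂ g, {x | quotAct α w g x = x} := by
    ext x
    simp [mem_fixedQuot]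
  rw [h]
  exact isClosed_iInter fun g => isClosed_eq
    (AddMonoidHomClass.continuous_of_bound (quotAct α w g) 1
      fun x => (NonUnitalStarAlgHom.norm_apply_le _ x).trans_eq (one_mul _).symm)
    continuous_id

noncomputable instance : CStarAlgebra (fixedQuot α w) :=
  StarSubalgebra.cstarAlgebra _ (h_closed := isClosed_fixedQuot α w)

/-- Every fixed class has an exactly invariant lift. -/
theorem exists_fixed_lift [Fintype G] {x : CentralQuot (A := A) w} (hx : x ∈ fixedQuot α w) :
    ∃ f : centralSeq (w : Filter ℕ) A,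
      Ideal.Quotient.mk (nullIdeal w) f = x ∧ ∀ g, centralAct α w g f = f := by
  obtain ⟨f, rfl⟩ := Ideal.Quotient.mk_surjective x
  have hG : (Fintype.card G : ℂ) ≠ 0 := Nat.cast_ne_zero.2 Fintype.card_ne_zero
  refine ⟨(Fintype.card G : ℂ)⁻¹ • ∑ g, centralAct α w g f, ?_, fun h => ?_⟩
  · show (quotHom (nullIdeal (A := A) w)) _ = _
    rw [map_smul, map_sum]
    have : ∀ g, quotHom (nullIdeal (A := A) w) (centralAct α w g f)
        = Ideal.Quotient.mk (nullIdeal w) f := fun g => hx g
    rw [Finset.sum_congr rfl fun g _ => this g, Finset.sum_const, Finset.card_univ,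
      ← Nat.cast_smul_eq_nsmul ℂ, inv_smul_smul₀ hG]
  · rw [map_smul, map_sum]
    congr 1
    refine Fintype.sum_equiv (Equiv.mulLeft h) _ _ fun g => ?_
    apply Subtype.ext
    ext n
    simp [centralAct_apply]

/-- Reindexing commutes with the action. -/
theorem seqAct_reindex (g : G) (m : ℕ → ℕ) (f : ℕ →ᵇ A) :
    seqAct α g (reindex m f) = reindex m (seqAct α g f) := rfl

theorem hasCopies_fixedQuot [Fintype G] [TopologicalSpace.SeparableSpace A]
    (hw : (w : Filter ℕ) ≤ cofinite) : HasCopies (fixedQuot α w) := by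
  intro n a R hR
  choose x hxq hxfix using fun i => exists_fixed_lift α w (a i).2
  refine ⟨∑ i, ‖x i‖, fun S => ?_⟩
  choose lift hlift using (Ideal.Quotient.mk_surjective : Function.Surjective
    (Ideal.Quotient.mk (nullIdeal w) :
      centralSeq (w : Filter ℕ) A → CentralQuot (A := A) w))
  let q := (quotHom (nullIdeal (A := A) w)).toAlgHom
  let incl := (fixedQuot α w).subtype.toAlgHom
  let xs : Fin n ⊕ Fin n → centralSeq (w : Filter ℕ) A := Sum.elim x fun i => star (x i)
  let r : R → centralSeq (w : Filter ℕ) A := fun p => FreeAlgebra.lift ℂ xs (p : FreeAlgebra ℂ _)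
  have hr : ∀ p, IsNull (w : Filter ℕ) (r p : ℕ →ᵇ A) := fun p => by
    rw [← quotHom_eq_zero]
    show q (r p) = 0
    rw [algHom_lift]
    have h0 : incl (FreeAlgebra.lift ℂ (Sum.elim a fun i => star (a i)) (p : FreeAlgebra ℂ _)) = 0 := by
      rw [hR p p.2, map_zero]
    rw [algHom_lift] at h0
    refine Eq.trans ?_ h0
    congr 2
    funext i
    rcases i with i | i <;> simp [q, incl, xs, quotHom_apply, hxq, ← star_mk]
  obtain ⟨m, hm, hmR, hmS⟩ :=
    exists_reindex w hw x (fun b : S => (lift (b : fixedQuot α w) : ℕ →ᵇ A))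
      (fun p => (r p : ℕ →ᵇ A)) hr
  let x' : Fin n → centralSeq (w : Filter ℕ) A := fun i => ⟨reindex m (x i : ℕ →ᵇ A), hm i⟩
  have hfix : ∀ i, Ideal.Quotient.mk (nullIdeal w) (x' i) ∈ fixedQuot α w := fun i g => by
    rw [quotAct_mk]
    congr 1
    apply Subtype.ext
    show seqAct α g (reindex m (x i : ℕ →ᵇ A)) = reindex m (x i : ℕ →ᵇ A)
    rw [seqAct_reindex]
    exact congrArg (reindex m) (congrArg Subtype.val (hxfix i g))
  refine ⟨fun i => ⟨_, hfix i⟩, fun i => ?_, fun p hp => ?_, fun i b hb => ?_⟩
  · refine (Submodule.Quotient.norm_mk_le _ _).trans (le_trans ?_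
      (Finset.single_le_sum (fun j _ => norm_nonneg (x j)) (Finset.mem_univ i)))
    exact (BoundedContinuousFunction.norm_le (norm_nonneg _)).2
      fun k => (x i : ℕ →ᵇ A).norm_coe_le_norm (m k)
  · apply Subtype.ext
    show incl _ = 0
    rw [algHom_lift]
    let xs' : Fin n ⊕ Fin n → centralSeq (w : Filter ℕ) A := Sum.elim x' fun i => star (x' i)
    have h1 : q (FreeAlgebra.lift ℂ xs' p) = 0 := by
      show quotHom (nullIdeal (A := A) w) _ = 0
      rw [quotHom_eq_zero]
      have h2 : (centralSeq (w : Filter ℕ) A).subtype.toAlgHom (FreeAlgebra.lift ℂ xs' p)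
          = reindexAlg m ((centralSeq (w : Filter ℕ) A).subtype.toAlgHom (r ⟨p, hp⟩)) := by
        simp only [r, algHom_lift]
        congr 2
        funext i
        rcases i with i | i <;> rfl
      show IsNull _ ((centralSeq (w : Filter ℕ) A).subtype.toAlgHom (FreeAlgebra.lift ℂ xs' p))
      rw [h2]
      exact hmR ⟨p, hp⟩
    rw [algHom_lift] at h1
    refine Eq.trans ?_ h1
    congr 2
    funext i
    rcases i with i | i <;> simp [q, incl, xs', quotHom_apply, ← star_mk]
  · constructor <;> rw [commute_iff_eq] <;> apply Subtype.ext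
    · show _ * (b : CentralQuot (A := A) w) = (b : CentralQuot (A := A) w) * _
      rw [← hlift (b : CentralQuot (A := A) w), ← map_mul, ← map_mul,
        Ideal.Quotient.mk_eq_mk_iff_sub_mem, mem_nullIdeal]
      exact (hmS i ⟨b, hb⟩).1
    · show _ * star (b : CentralQuot (A := A) w) = star (b : CentralQuot (A := A) w) * _
      rw [← hlift (b : CentralQuot (A := A) w), star_mk, ← map_mul, ← map_mul,
        Ideal.Quotient.mk_eq_mk_iff_sub_mem, mem_nullIdeal]
      exact (hmS i ⟨b, hb⟩).2

end Vale.Agent.P095
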