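import Mathlib

/-!
P095: an invariant functional, multiplicative on invariant elements, restricted to an invariant
commutative C*-subalgebra, is the average of one character over its orbit.
-/

namespace Vale.Agent.P095

universe u

variable {U : Type u} [CStarAlgebra U] {G : Type} [Group G] [Fintype G]

theorem exists_orbit_character (β : G → U →⋆ₐ[ℂ] U) (hmul : ∀ g h x, β g (β h x) = β (g * h) x)
    (τ : U →ₗ[ℂ] ℂ) (hinv : ∀ g x, τ (β g x) = τ x) (hone : τ 1 = 1)
    (hτmul : ∀ x z, (∀ g, β g x = x) → (∀ g, β g z = z) → τ (x * z) = τ x * τ z)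
    (S : StarSubalgebra ℂ U) (hSc : IsClosed (S : Set U))
    (hScomm : ∀ x ∈ S, ∀ z ∈ S, x * z = z * x) (hS : ∀ g, ∀ x ∈ S, β g x ∈ S) :
    ∃ ω : S →ₐ[ℂ] ℂ, (∀ x : S, ω x ∈ spectrum ℂ (x : U)) ∧
      ∀ x : S, τ (x : U) = (Fintype.card G : ℂ)⁻¹ * ∑ g, ω ⟨β g x, hS g x x.2⟩ := by
  let : CommCStarAlgebra S :=
    { StarSubalgebra.cstarAlgebra S (h_closed := hSc) with
      mul_comm := fun x z => Subtype.ext (hScomm _ x.2 _ z.2) }
  let Z : Set S := {x | (∀ g, β g (x : U) = x) ∧ τ (x : U) = 0}
  obtain ⟨ω, hω⟩ : ∃ ω : WeakDual.characterSpace ℂ S, ∀ x ∈ Z, ω x = 0 := by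
    by_contra hne
    push Not at hne
    have hcl : ∀ x : Z, IsClosed {ω : WeakDual.characterSpace ℂ S | ω (x : S) = 0} := fun x =>
      isClosed_eq ((WeakDual.eval_continuous (x : S)).comp continuous_subtype_val) continuous_const
    obtain ⟨t, ht⟩ := isCompact_univ.elim_finite_subfamily_closed
      (fun x : Z => {ω : WeakDual.characterSpace ℂ S | ω (x : S) = 0}) hcl
      (Set.eq_empty_of_forall_notMem fun ω h => by
        obtain ⟨x, hx, hx0⟩ := hne ω
        exact hx0 (Set.mem_iInter.1 h.2 ⟨x, hx⟩))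
    set q : S := ∑ x ∈ t, star (x : S) * (x : S) with hq
    have hu : IsUnit q := by
      by_contra hq'
      obtain ⟨ω, hω⟩ := WeakDual.CharacterSpace.exists_apply_eq_zero hq'
      rw [hq, map_sum] at hω
      have h0 : ∀ x ∈ t, ω (x : S) = 0 := by
        have e : ∀ x : S, ω (star x * x) = ((Complex.normSq (ω x) : ℝ) : ℂ) := fun x => by
          rw [map_mul, map_star, Complex.star_def, mul_comm, Complex.mul_conj]
        simp only [e, ← Complex.ofReal_sum, Complex.ofReal_eq_zero] at hω
        intro x hx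
        exact Complex.normSq_eq_zero.1
          ((Finset.sum_eq_zero_iff_of_nonneg fun y _ => Complex.normSq_nonneg _).1 hω x hx)
      have : ω ∈ (∅ : Set (WeakDual.characterSpace ℂ S)) := by
        rw [← ht]
        exact ⟨Set.mem_univ _, Set.mem_iInter₂.2 h0⟩
      exact this
    obtain ⟨v, hv⟩ := hu.exists_right_inv
    have hqfix : ∀ g, β g (q : U) = q := by
      intro g
      simp only [hq, AddSubmonoidClass.coe_finsetSum, MulMemClass.coe_mul, StarMemClass.coe_star,
        map_sum, map_mul, map_star]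
      exact Finset.sum_congr rfl fun x _ => by rw [x.2.1 g]
    have hv' : (q : U) * (v : U) = 1 := by
      rw [← MulMemClass.coe_mul, hv, OneMemClass.coe_one]
    have hvfix : ∀ g, β g (v : U) = v := by
      intro g
      have h1 : (q : U) * β g (v : U) = 1 := by rw [← hqfix g, ← map_mul, hv', map_one]
      have h2 : (v : U) * q = 1 := by rw [hScomm _ v.2 _ q.2, hv']
      calc β g (v : U) = ((v : U) * q) * β g (v : U) := by rw [h2, one_mul]
        _ = v := by rw [mul_assoc, h1, mul_one]
    have hq0 : τ (q : U) = 0 := by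
      simp only [hq, AddSubmonoidClass.coe_finsetSum, MulMemClass.coe_mul, StarMemClass.coe_star,
        map_sum]
      refine Finset.sum_eq_zero fun x _ => ?_
      rw [hτmul _ _ (fun g => by rw [map_star, x.2.1 g]) x.2.1, x.2.2, mul_zero]
    have := hτmul _ _ hqfix hvfix
    rw [hv', hone, hq0, zero_mul] at this
    exact one_ne_zero this
  refine ⟨WeakDual.CharacterSpace.toAlgHom ω, fun x => ?_, fun x => ?_⟩
  · have h1 : ω x ∈ spectrum ℂ x := AlgHom.apply_mem_spectrum _ x
    rwa [StarSubalgebra.spectrum_eq S (hS := hSc)] at h1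
  · have hG : (Fintype.card G : ℂ) ≠ 0 := by exact_mod_cast Fintype.card_ne_zero
    set y : S := (Fintype.card G : ℂ)⁻¹ • ∑ g, ⟨β g x, hS g x x.2⟩ with hy
    have hycoe : (y : U) = (Fintype.card G : ℂ)⁻¹ • ∑ g, β g x := by
      simp [hy]
    have hy1 : τ (y : U) = τ (x : U) := by
      simp [hycoe, hinv, hG]
    have hyfix : ∀ g, β g (y : U) = y := by
      intro g
      rw [hycoe, map_smul, map_sum]
      congr 1
      exact Fintype.sum_equiv (Equiv.mulLeft g) _ _ fun h => hmul g h _
    have hmem : y - algebraMap ℂ S (τ (y : U)) ∈ Z :=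
      ⟨fun g => by simp [hyfix g, AlgHomClass.commutes],
        by simp [Algebra.algebraMap_eq_smul_one, hone]⟩
    have h2 := hω _ hmem
    change WeakDual.CharacterSpace.toAlgHom ω _ = 0 at h2
    rw [map_sub, AlgHom.commutes, Algebra.algebraMap_self, RingHom.id_apply, sub_eq_zero] at h2
    rw [← hy1, ← h2, hy, map_smul, map_sum, smul_eq_mul]

end Vale.Agent.P095
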