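import Vale.Agent.P095.Average
import Vale.Agent.P095.Orbit

/-!
P095: for a finite group acting on a C*-algebra with a pool of commuting copies, the fixed-point
algebra has no characters.
-/

namespace Vale.Agent.P095

open Filter
open scoped Topology BoundedContinuousFunction ComplexConjugate

universe u

variable {F : Type u} [CStarAlgebra F] {G : Type} [Group G] [Fintype G]
  {α : G → F →⋆ₐ[ℂ] F} {φ : F →ₗ[ℂ] ℂ} {n : ℕ}

lemma starAlgHom_continuous {A B : Type u} [CStarAlgebra A] [CStarAlgebra B]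
    (β : A →⋆ₐ[ℂ] B) : Continuous β :=
  AddMonoidHomClass.continuous_of_bound β 1 fun x => by
    simpa using NonUnitalStarAlgHom.norm_apply_le β x

omit [Fintype G] in
/-- The averages over blocks of the diagonal sums are bounded below in the ultrapower. -/
lemma exists_avg_lower (P : Pool α n) {K δ B : ℝ} (hK0 : 0 ≤ K)
    (hK : ∀ g h p, ‖α g (kern P h p)‖ ≤ K)
    (hlow : ∀ g p, p.1 ≠ p.2 → ∃ q : F, ‖q‖ ≤ B ∧ α g (kern P 1 p) - (δ : ℂ) • 1 = star q * q)
    (g : G) (m : Index →ᵇ F) (hm : ∀ i, m i = blockAvg P g 1 i) :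
    ∃ Qf : Index →ᵇ F,
      cls blockLimit m - (δ : ℂ) • 1 = star (cls blockLimit Qf) * cls blockLimit Qf := by
  classical
  let := CStarAlgebra.spectralOrder F
  have := CStarAlgebra.spectralOrderedRing F
  let X : Index → F := fun i => blockAvg P g 1 i - (δ : ℂ) • 1
  let Q : Index → F := fun i => if 0 ≤ X i then CFC.sqrt (X i) else 0
  have hQb : ∀ i, ‖Q i‖ ≤ K + ‖(δ : ℂ) • (1 : F)‖ + 1 := by
    intro i
    simp only [Q]
    split_ifs with hX
    · have h5 : ‖X i‖ ≤ K + ‖(δ : ℂ) • (1 : F)‖ :=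
        (norm_sub_le _ _).trans (add_le_add (norm_avg_le hK0 _ fun r => hK g 1 _) le_rfl)
      have h6 : ‖CFC.sqrt (X i)‖ * ‖CFC.sqrt (X i)‖ = ‖X i‖ := by
        rw [← CStarRing.norm_star_mul_self, (IsSelfAdjoint.of_nonneg (CFC.sqrt_nonneg _)).star_eq,
          CFC.sqrt_mul_sqrt_self _ hX]
      nlinarith [norm_nonneg (CFC.sqrt (X i)), sq_nonneg (‖CFC.sqrt (X i)‖ - 1 / 2)]
    · rw [norm_zero]
      positivity
  refine ⟨fam Q _ hQb, ?_⟩
  rw [← map_one (cls blockLimit), ← map_smul, ← map_sub, ← map_star, ← map_mul, cls_eq_cls]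
  refine tendsto_const_nhds.congr' ((eventually_good 1).mono fun i hi => ?_)
  obtain ⟨hL, hinj⟩ := hi
  have hXi : X i = (i.1 : ℂ)⁻¹ •
      ∑ r : Fin i.1, (α g (kern P 1 (pairAt i.2 r)) - (δ : ℂ) • 1) := by
    have : (i.1 : ℂ) ≠ 0 := by exact_mod_cast (show i.1 ≠ 0 by omega)
    simp only [X, blockAvg, Finset.sum_sub_distrib, Finset.sum_const, Finset.card_univ,
      Fintype.card_fin, smul_sub]
    rw [← Nat.cast_smul_eq_nsmul ℂ, inv_smul_smul₀ this]
  have hX0 : 0 ≤ X i := by
    rw [hXi, show (i.1 : ℂ)⁻¹ = (((i.1 : ℝ)⁻¹ : ℝ) : ℂ) by simp, Complex.coe_smul]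
    refine smul_nonneg (by positivity) (Finset.sum_nonneg fun r _ => ?_)
    obtain ⟨q, -, hq⟩ := hlow g (pairAt i.2 r) fun e => by
      have := Fin.mk.inj (hinj e)
      omega
    rw [hq]
    exact star_mul_self_nonneg q
  show 0 = m i - ((δ : ℂ) • (1 : F)) - star (fam Q _ hQb i) * fam Q _ hQb i
  rw [fam_apply, show Q i = CFC.sqrt (X i) from if_pos hX0,
    (IsSelfAdjoint.of_nonneg (CFC.sqrt_nonneg _)).star_eq, CFC.sqrt_mul_sqrt_self _ hX0, hm]
  exact (sub_self _).symm

/-- No sharp invariant functional lives on an action with a pool. -/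
theorem false_of_sharp_pool (H : Sharp α φ) (P : Pool α n) : False := by
  obtain ⟨K, hK0, hK⟩ := exists_kern_bound P
  obtain ⟨δ, hδ, B, hlow⟩ := exists_lower P H.one
  let W := blockLimit
  let M : G → G → (Index →ᵇ F) := fun g h =>
    fam (blockAvg P g h) K fun i => norm_avg_le hK0 _ fun r => hK g h _
  choose β hβ using fun g => exists_lift_comp (F := F) W (α g)
  obtain ⟨τ, hτn, hτ⟩ := exists_limit_functional W φ H.norm_le
  let gensM : Set (Ultra F W) := Set.range fun gh : G × G => cls W (M gh.1 gh.2)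
  let S : StarSubalgebra ℂ (Ultra F W) := (StarAlgebra.adjoin ℂ gensM).topologicalClosure
  have hSc : IsClosed (S : Set (Ultra F W)) := StarSubalgebra.isClosed_topologicalClosure _
  have hmem : ∀ g h, cls W (M g h) ∈ S := fun g h =>
    StarSubalgebra.le_topologicalClosure _ (StarAlgebra.subset_adjoin _ _ ⟨(g, h), rfl⟩)
  -- the averaged sums commute
  have hnull : ∀ (u : Index → F) (D : ℝ), (∀ i, Function.Injective i.2 → ‖u i‖ ≤ (i.1 : ℝ)⁻¹ * D) →
      Tendsto u (W : Filter Index) (𝓝 0) := by
    intro u D hu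
    have hL : Tendsto (fun i : Index => (i.1 : ℝ)⁻¹ * D) (W : Filter Index) (𝓝 0) := by
      have h1 : Tendsto (fun i : Index => i.1) (W : Filter Index) atTop :=
        tendsto_atTop.2 fun N => (eventually_good N).mono fun i hi => hi.1
      simpa using ((tendsto_inv_atTop_nhds_zero_nat (𝕜 := ℝ)).comp h1).mul_const D
    exact squeeze_zero_norm' ((eventually_good 0).mono fun i hi => hu i hi.2) hL
  have hcomm : ∀ a ∈ gensM, ∀ b ∈ gensM, a * b = b * a ∧ a * star b = star b * a := by
    rintro _ ⟨⟨g, h⟩, rfl⟩ _ ⟨⟨g', h'⟩, rfl⟩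
    refine ⟨?_, ?_⟩
    · rw [← map_mul, ← map_mul, cls_eq_cls]
      refine hnull _ (2 * K * K) fun i hi => ?_
      exact norm_commutator_avg_le
        (fun r => α g (kern P h (pairAt i.2 r))) (fun r => α g' (kern P h' (pairAt i.2 r)))
        (fun r => hK g h _) (fun r => hK g' h' _)
        (fun r s hrs => (commute_kern P H.mul (apart_pairAt hi hrs) g h g' h').1)
    · rw [← map_star, ← map_mul, ← map_mul, cls_eq_cls]
      refine hnull _ (2 * K * K) fun i hi => ?_
      have hs : star (M g' h') i = (i.1 : ℂ)⁻¹ •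
          ∑ r : Fin i.1, star (α g' (kern P h' (pairAt i.2 r))) := by
        show star (blockAvg P g' h' i) = _
        simp [blockAvg, star_smul, star_sum]
      show ‖M g h i * star (M g' h') i - star (M g' h') i * M g h i‖ ≤ _
      rw [hs]
      exact norm_commutator_avg_le
        (fun r => α g (kern P h (pairAt i.2 r))) (fun r => star (α g' (kern P h' (pairAt i.2 r))))
        (fun r => hK g h _) (fun r => by rw [norm_star]; exact hK g' h' _)
        (fun r s hrs => (commute_kern P H.mul (apart_pairAt hi hrs) g h g' h').2)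
  have hScomm : ∀ x ∈ S, ∀ z ∈ S, x * z = z * x := by
    intro x hx z hz
    have hcc := StarSubalgebra.topologicalClosure_adjoin_le_centralizer_centralizer ℂ gensM
    have hx' : x ∈ StarSubalgebra.centralizer ℂ gensM := by
      rw [StarSubalgebra.mem_centralizer_iff]
      intro a ha
      have haC : a ∈ StarSubalgebra.centralizer ℂ gensM := by
        rw [StarSubalgebra.mem_centralizer_iff]
        intro b hb
        exact ⟨(hcomm b hb a ha).1, (hcomm a ha b hb).2.symm⟩
      have h1 := hcc hx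
      rw [StarSubalgebra.mem_centralizer_iff] at h1
      exact h1 a haC
    have h2 := hcc hz
    rw [StarSubalgebra.mem_centralizer_iff] at h2
    exact (h2 x hx').1
  -- the action
  have hβM : ∀ g g' h, β g (cls W (M g' h)) = cls W (M (g * g') h) := fun g g' h =>
    hβ g _ _ fun i => by
      show blockAvg P (g * g') h i = α g (blockAvg P g' h i)
      simp [blockAvg, H.mul, map_sum]
  have hβS : ∀ g, ∀ x ∈ S, β g x ∈ S := by
    intro g x hx
    have hle : S ≤ S.comap (β g) := by
      refine StarSubalgebra.topologicalClosure_minimal (StarAlgebra.adjoin_le ?_)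
        (hSc.preimage (starAlgHom_continuous (β g)))
      rintro _ ⟨⟨g', h⟩, rfl⟩
      show β g (cls W (M g' h)) ∈ S
      rw [hβM]
      exact hmem _ _
    exact hle hx
  have hτinv : ∀ g x, τ (β g x) = τ x := by
    intro g x
    obtain ⟨f, rfl⟩ := cls_surjective W x
    let f' : Index →ᵇ F := fam (fun i => α g (f i)) ‖f‖ fun i =>
      (NonUnitalStarAlgHom.norm_apply_le (α g) _).trans (f.norm_coe_le_norm i)
    rw [hβ g f f' fun i => rfl]
    exact tendsto_nhds_unique (hτ f') ((hτ f).congr fun i => (H.inv g (f i)).symm)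
  have hτone : τ 1 = 1 := by
    rw [← map_one (cls W)]
    refine tendsto_nhds_unique (hτ _) ?_
    simp [H.unit]
  have hG : (Fintype.card G : ℂ) ≠ 0 := by exact_mod_cast Fintype.card_ne_zero
  have hfix : ∀ x, (∀ g, β g x = x) → ∃ f : Index →ᵇ F, cls W f = x ∧ ∀ i g, α g (f i) = f i := by
    intro x hx
    obtain ⟨f, rfl⟩ := cls_surjective W x
    choose f' hf' using fun g => (⟨fam (fun i => α g (f i)) ‖f‖ fun i =>
      (NonUnitalStarAlgHom.norm_apply_le (α g) _).trans (f.norm_coe_le_norm i), fun i => rfl⟩ :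
        ∃ f' : Index →ᵇ F, ∀ i, f' i = α g (f i))
    refine ⟨(Fintype.card G : ℂ)⁻¹ • ∑ g, f' g, ?_, fun i g => ?_⟩
    · rw [map_smul, map_sum, Finset.sum_congr rfl fun g _ =>
        ((hβ g f (f' g) (hf' g)).symm.trans (hx g)), Finset.sum_const, Finset.card_univ,
        ← Nat.cast_smul_eq_nsmul ℂ, smul_smul, inv_mul_cancel₀ hG, one_smul]
    · have e : ((Fintype.card G : ℂ)⁻¹ • ∑ g, f' g : Index →ᵇ F) i = average α (f i) := by
        simp [average_apply, hf']
      rw [e, H.average_fixed]
  have hτmul : ∀ x z, (∀ g, β g x = x) → (∀ g, β g z = z) → τ (x * z) = τ x * τ z := by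
    intro x z hx hz
    obtain ⟨f, rfl, hf⟩ := hfix x hx
    obtain ⟨g, rfl, hg⟩ := hfix z hz
    rw [← map_mul]
    refine tendsto_nhds_unique (hτ _) (((hτ f).mul (hτ g)).congr fun i => ?_)
    simpa using (H.sharp _ _ (hf i) (hg i)).symm
  have hβmul : ∀ g h x, β g (β h x) = β (g * h) x := by
    intro g h x
    obtain ⟨f, rfl⟩ := cls_surjective W x
    let f' : G → (Index →ᵇ F) := fun g => fam (fun i => α g (f i)) ‖f‖ fun i =>
      (NonUnitalStarAlgHom.norm_apply_le (α g) _).trans (f.norm_coe_le_norm i)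
    rw [hβ h f (f' h) fun i => rfl, hβ (g * h) f (f' (g * h)) fun i => rfl]
    exact hβ g _ _ fun i => by simp [f', H.mul]
  obtain ⟨ω, hωs, hτω⟩ := exists_orbit_character β hβmul τ hτinv hτone hτmul S hSc hScomm hβS
  -- the finitely many numbers
  let z : G × G → ℂ := fun gh => ω ⟨cls W (M gh.1 gh.2), hmem _ _⟩
  have hz1 : ∀ g, δ ≤ (z (g, 1)).re ∧ (z (g, 1)).im = 0 := by
    intro g
    obtain ⟨Qf, hpos⟩ := exists_avg_lower P hK0 hK hlow g (M g 1) fun i => rfl
    set y : S := ⟨cls W (M g 1), hmem g 1⟩ - (δ : ℂ) • 1 with hy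
    have h2 : ω y ∈ spectrum ℂ (star (cls W Qf) * cls W Qf) := by
      rw [← hpos]
      simpa [hy] using hωs y
    have h3 := (IsSelfAdjoint.star_mul_self (cls W Qf)).mem_spectrum_eq_re h2
    have h4 : (ω y).re ∈ spectrum ℝ (star (cls W Qf) * cls W Qf) := by
      apply spectrum.of_algebraMap_mem (S := ℂ)
      rw [Complex.coe_algebraMap, ← h3]
      exact h2
    have h5 := spectrum_star_mul_self_nonneg _ h4
    have h6 : ω y = z (g, 1) - δ := by rw [hy, map_sub, map_smul, map_one, smul_eq_mul, mul_one]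
    rw [h6] at h5 h3
    constructor
    · simpa using h5
    · simpa using congrArg Complex.im h3
  obtain ⟨k, hk, hre⟩ := exists_pow_re_nonneg z
  obtain ⟨k, rfl⟩ : ∃ j, k = j + 1 := ⟨k - 1, by omega⟩
  have hzero : ∑ h, τ ((cls W (M 1 h)) ^ (k + 1)) = 0 := by
    refine tendsto_nhds_unique (tendsto_finsetSum Finset.univ fun h _ => ?_) (tendsto_moment P H k)
    rw [← map_pow]
    exact hτ (M 1 h ^ (k + 1))
  have hexp : ∀ h, τ ((cls W (M 1 h)) ^ (k + 1)) =
      (Fintype.card G : ℂ)⁻¹ * ∑ g, z (g, h) ^ (k + 1) := by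
    intro h
    have := hτω (⟨cls W (M 1 h), hmem 1 h⟩ ^ (k + 1))
    simp only [SubmonoidClass.coe_pow] at this
    rw [this]
    congr 1
    refine Finset.sum_congr rfl fun g _ => ?_
    simp only [z, ← map_pow]
    congr 1
    refine Subtype.ext ?_
    show β g (cls W (M 1 h ^ (k + 1))) = cls W (M g h) ^ (k + 1)
    rw [map_pow, map_pow, hβM, mul_one]
  simp only [hexp, ← Finset.mul_sum, mul_eq_zero, inv_eq_zero, hG, false_or] at hzero
  have hre0 := congrArg Complex.re hzero
  rw [Finset.sum_comm, Complex.re_sum, Complex.zero_re] at hre0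
  have hlow' : ∀ g, δ ^ (k + 1) ≤ (∑ h, z (g, h) ^ (k + 1)).re := by
    intro g
    rw [Complex.re_sum]
    refine le_trans ?_ (Finset.single_le_sum (fun h _ => hre (g, h)) (Finset.mem_univ 1))
    have e : z (g, 1) = ((z (g, 1)).re : ℂ) := Complex.ext (by simp) (by simp [(hz1 g).2])
    rw [e, ← Complex.ofReal_pow, Complex.ofReal_re]
    exact pow_le_pow_left₀ hδ.le (hz1 g).1 _
  have := Finset.sum_pos (s := (Finset.univ : Finset G))
    (fun g _ => lt_of_lt_of_le (pow_pos hδ (k + 1)) (hlow' g)) Finset.univ_nonempty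
  linarith

/-- If a finite group acts on a C*-algebra with a pool of commuting copies, then the algebra of
fixed points has no characters. -/
theorem fixed_no_character {α : G → F →⋆ₐ[ℂ] F} (h1 : α 1 = StarAlgHom.id ℂ F)
    (hmul : ∀ g h, α (g * h) = (α g).comp (α h)) (P : Pool α n) (S : StarSubalgebra ℂ F)
    (hS : ∀ x, x ∈ S ↔ ∀ g, α g x = x) : IsEmpty (S →⋆ₐ[ℂ] ℂ) := by
  refine ⟨fun χ => ?_⟩
  have hSc : IsClosed (S : Set F) := by
    rw [show (S : Set F) = ⋂ g, {x | α g x = x} by
      ext x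
      simp [hS]]
    exact isClosed_iInter fun g => isClosed_eq (starAlgHom_continuous (α g)) continuous_id
  let := StarSubalgebra.cstarAlgebra S (h_closed := hSc)
  have hav : ∀ x, average α x ∈ S := by
    intro x
    rw [hS]
    intro g
    rw [average_apply, map_smul, map_sum]
    congr 1
    exact Fintype.sum_equiv (Equiv.mulLeft g) _ _ fun h => by simp [hmul]
  let φ : F →ₗ[ℂ] ℂ :=
    { toFun := fun x => χ ⟨average α x, hav x⟩
      map_add' := fun x z => by
        rw [← map_add]
        exact congrArg χ (Subtype.ext (map_add _ _ _))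
      map_smul' := fun c x => by
        rw [RingHom.id_apply, ← map_smul]
        exact congrArg χ (Subtype.ext (map_smul _ _ _)) }
  have hG : (Fintype.card G : ℂ) ≠ 0 := by exact_mod_cast Fintype.card_ne_zero
  have hfixed : ∀ x, (∀ g, α g x = x) → average α x = x := by
    intro x hx
    rw [average_apply]
    simp [hx, ← Nat.cast_smul_eq_nsmul ℂ, smul_smul, hG]
  have H : Sharp α φ := by
    refine ⟨h1, hmul, fun x => ?_, ?_, fun g x => ?_, fun x => ?_, fun x z hx hz => ?_⟩
    · refine (NonUnitalStarAlgHom.norm_apply_le χ _).trans ?_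
      show ‖average α x‖ ≤ ‖x‖
      rw [average_apply]
      refine (norm_smul_le _ _).trans ?_
      rw [norm_inv, Complex.norm_natCast, inv_mul_le_iff₀ (by exact_mod_cast Fintype.card_pos)]
      refine (norm_sum_le _ _).trans ((Finset.sum_le_sum fun g _ =>
        NonUnitalStarAlgHom.norm_apply_le (α g) x).trans (le_of_eq ?_))
      simp
    · show χ _ = 1
      rw [← map_one χ]
      exact congrArg χ (Subtype.ext (hfixed 1 fun g => map_one _))
    · refine congrArg χ (Subtype.ext ?_)
      show average α (α g x) = average α x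
      rw [average_apply, average_apply]
      congr 1
      exact Fintype.sum_equiv (Equiv.mulRight g) _ _ fun h => by simp [hmul]
    · show χ _ = conj (χ _)
      rw [← Complex.star_def, ← map_star]
      refine congrArg χ (Subtype.ext ?_)
      show average α (star x) = star (average α x)
      simp [average_apply, star_sum, map_star, star_smul]
    · show χ _ = χ _ * χ _
      rw [← map_mul]
      refine congrArg χ (Subtype.ext ?_)
      show average α (x * z) = average α x * average α z
      rw [hfixed x hx, hfixed z hz, hfixed (x * z) fun g => by rw [map_mul, hx g, hz g]]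
  exact false_of_sharp_pool H P

end Vale.Agent.P095
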