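import Vale.Agent.P095.FixedCopies

/-!
P095: dimension drop relations fixed by finite subsets of a countable group pass to the whole group.
-/

namespace Vale.Agent.P095

open Filter Vale.Agent.P101
open scoped Topology BoundedContinuousFunction

universe u

/-- The dimension drop relations bound both elements by one. -/
theorem norm_le_one_of_dropRelations {F : Type*} [CStarAlgebra F] {y s : F}
    (h : DropRelations y s) : ‖y‖ ≤ 1 ∧ ‖s‖ ≤ 1 := by
  let _ := CStarAlgebra.spectralOrder F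
  have := CStarAlgebra.spectralOrderedRing F
  rcases subsingleton_or_nontrivial F with hs | hn
  · simp [Subsingleton.elim y 0, Subsingleton.elim s 0]
  have h1 : star s * s + star y * y + y * star y = 1 := by rw [h.2.1]; abel
  have key : ∀ x : F, star x * x ≤ 1 → ‖x‖ ≤ 1 := fun x hx => by
    have := CStarAlgebra.norm_le_norm_of_nonneg_of_le (star_mul_self_nonneg x) hx
    rw [CStarRing.norm_star_mul_self, norm_one] at this
    nlinarith [norm_nonneg x]
  constructor
  · refine key y (le_of_le_of_eq ?_ h1)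
    exact le_add_of_le_of_nonneg (le_add_of_nonneg_left (star_mul_self_nonneg s))
      (mul_star_self_nonneg y)
  · refine key s (le_of_le_of_eq ?_ h1)
    exact le_add_of_le_of_nonneg (le_add_of_nonneg_right (star_mul_self_nonneg y))
      (mul_star_self_nonneg y)

variable {A : Type u} [CStarAlgebra A] {w : Ultrafilter ℕ}

noncomputable local instance : CStarAlgebra (centralSeq (w : Filter ℕ) A) :=
  StarSubalgebra.cstarAlgebra _ (h_closed := isClosed_centralSeq w)

/-- Asymptotic commutation with a dense sequence is enough for centrality. -/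
theorem mem_centralSeq_of_dense [TopologicalSpace.SeparableSpace A] {f : ℕ →ᵇ A}
    (h : ∀ l, Tendsto (fun n => f n * TopologicalSpace.denseSeq A l -
      TopologicalSpace.denseSeq A l * f n) (w : Filter ℕ) (𝓝 0)) :
    f ∈ centralSeq (w : Filter ℕ) A := by
  intro a
  rw [Metric.tendsto_nhds]
  intro ε hε
  obtain ⟨l, hl⟩ := (TopologicalSpace.denseRange_denseSeq A).exists_dist_lt a
    (show 0 < ε / (4 * (‖f‖ + 1)) by positivity)
  rw [dist_eq_norm] at hl
  filter_upwards [Metric.tendsto_nhds.1 (h l) (ε / 2) (half_pos hε)] with n hn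
  rw [dist_zero_right] at hn ⊢
  have e : f n * a - a * f n = (f n * TopologicalSpace.denseSeq A l -
      TopologicalSpace.denseSeq A l * f n) + (f n * (a - TopologicalSpace.denseSeq A l) -
      (a - TopologicalSpace.denseSeq A l) * f n) := by noncomm_ring
  have h5 : ‖f‖ * (ε / (4 * (‖f‖ + 1))) ≤ ε / 4 := by
    rw [mul_div_assoc', div_le_div_iff₀ (by positivity) (by norm_num)]
    nlinarith [norm_nonneg f]
  rw [e]
  refine lt_of_le_of_lt ((norm_add_le _ _).trans (add_le_add le_rfl ((norm_sub_le _ _).trans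
    (add_le_add (norm_mul_le _ _) (norm_mul_le _ _))))) ?_
  nlinarith [mul_le_mul (f.norm_coe_le_norm n) hl.le (norm_nonneg _) (norm_nonneg _)]

variable {G : Type*} [Group G] (α : G →* (A ≃⋆ₐ[ℂ] A))

/-- An element pair within `r` of the fixed dimension drop relations and of centrality. -/
def Approx (e : ℕ → G) (d : ℕ → A) (n : ℕ) (r : ℝ) (a b : A) : Prop :=
  (‖a‖ ≤ 2 ∧ ‖b‖ ≤ 2) ∧ ‖a * a‖ ≤ r ∧
    ‖star b * b - (1 - star a * a - a * star a)‖ ≤ r ∧ ‖star a * a * b - b‖ ≤ r ∧
    (∀ i : Fin (n + 1), ‖α (e i) a - a‖ ≤ r ∧ ‖α (e i) b - b‖ ≤ r) ∧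
    ∀ l : Fin (n + 1), ‖a * d l - d l * a‖ ≤ r ∧ ‖b * d l - d l * b‖ ≤ r

theorem tendsto_of_mk_eq {f g : centralSeq (w : Filter ℕ) A}
    (hfg : Ideal.Quotient.mk (nullIdeal w) f = Ideal.Quotient.mk (nullIdeal w) g) :
    Tendsto (fun k => (f : ℕ →ᵇ A) k - (g : ℕ →ᵇ A) k) (w : Filter ℕ) (𝓝 0) := by
  rw [Ideal.Quotient.mk_eq_mk_iff_sub_mem, mem_nullIdeal] at hfg
  exact hfg

theorem exists_approx (e : ℕ → G) (d : ℕ → A) (n : ℕ) {r : ℝ} (hr : 0 < r)
    {y s : CentralQuot (A := A) w}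
    (hfix : ∀ i : Fin (n + 1), quotAct α w (e i) y = y ∧ quotAct α w (e i) s = s)
    (hrel : DropRelations y s) : ∃ a b : A, Approx α e d n r a b := by
  obtain ⟨hy1, hs1⟩ := norm_le_one_of_dropRelations hrel
  obtain ⟨Y, rfl, hY⟩ := Submodule.Quotient.norm_mk_lt y zero_lt_one
  obtain ⟨T, rfl, hT⟩ := Submodule.Quotient.norm_mk_lt s zero_lt_one
  obtain ⟨r1, r2, r3⟩ := hrel
  have small : ∀ {u : ℕ → A}, Tendsto u (w : Filter ℕ) (𝓝 0) →
      ∀ᶠ k in (w : Filter ℕ), ‖u k‖ ≤ r := by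
    intro u hu
    filter_upwards [Metric.tendsto_nhds.1 hu r hr] with k hk
    rw [dist_zero_right] at hk
    exact hk.le
  have hYn : ∀ k, ‖(Y : ℕ →ᵇ A) k‖ ≤ 2 := fun k =>
    ((Y : ℕ →ᵇ A).norm_coe_le_norm k).trans (hY.le.trans (by linarith))
  have hTn : ∀ k, ‖(T : ℕ →ᵇ A) k‖ ≤ 2 := fun k =>
    ((T : ℕ →ᵇ A).norm_coe_le_norm k).trans (hT.le.trans (by linarith))
  have n1 := tendsto_of_mk_eq (f := Y * Y) (g := 0) (r1.trans (map_zero _).symm)
  have n2 := tendsto_of_mk_eq (f := star T * T) (g := 1 - star Y * Y - Y * star Y) r2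
  have n3 := tendsto_of_mk_eq (f := star Y * Y * T) (g := T) r3
  have n4 : ∀ i : Fin (n + 1),
      Tendsto (fun k => α (e i) ((Y : ℕ →ᵇ A) k) - (Y : ℕ →ᵇ A) k) (w : Filter ℕ) (𝓝 0) ∧
      Tendsto (fun k => α (e i) ((T : ℕ →ᵇ A) k) - (T : ℕ →ᵇ A) k) (w : Filter ℕ) (𝓝 0) :=
    fun i => ⟨tendsto_of_mk_eq (f := centralAct α w (e i) Y) (g := Y) (hfix i).1,
      tendsto_of_mk_eq (f := centralAct α w (e i) T) (g := T) (hfix i).2⟩
  obtain ⟨k, hk1, hk2, hk3, hk4, hk5⟩ := ((small n1).and ((small n2).and ((small n3).and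
    ((eventually_all.2 fun i : Fin (n + 1) => (small (n4 i).1).and (small (n4 i).2)).and
    (eventually_all.2 fun l : Fin (n + 1) => (small (Y.2 (d l))).and
      (small (T.2 (d l)))))))).exists
  refine ⟨(Y : ℕ →ᵇ A) k, (T : ℕ →ᵇ A) k, ⟨hYn k, hTn k⟩, ?_, hk2, hk3, hk4, hk5⟩
  simpa using hk1

theorem exists_of_approx [TopologicalSpace.SeparableSpace A] (hw : (w : Filter ℕ) ≤ cofinite)
    {e : ℕ → G} (he : Function.Surjective e) {a b : ℕ → A}
    (h : ∀ n, Approx α e (TopologicalSpace.denseSeq A) n (1 / ((n : ℝ) + 1)) (a n) (b n)) :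
    ∃ y s : CentralQuot (A := A) w,
      (∀ g, quotAct α w g y = y ∧ quotAct α w g s = s) ∧ DropRelations y s := by
  have hlim : Tendsto (fun n : ℕ => 1 / ((n : ℝ) + 1)) (w : Filter ℕ) (𝓝 0) :=
    tendsto_one_div_add_atTop_nhds_zero_nat.mono_left (hw.trans_eq Nat.cofinite_eq_atTop)
  have hev : ∀ m, ∀ᶠ n in (w : Filter ℕ), m ≤ n := fun m =>
    (hw.trans_eq Nat.cofinite_eq_atTop) (eventually_ge_atTop m)
  let Y₀ := BoundedContinuousFunction.ofNormedAddCommGroupDiscrete a 2 fun n => (h n).1.1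
  let T₀ := BoundedContinuousFunction.ofNormedAddCommGroupDiscrete b 2 fun n => (h n).1.2
  let Y : centralSeq (w : Filter ℕ) A := ⟨Y₀, mem_centralSeq_of_dense fun l =>
    squeeze_zero_norm' ((hev l).mono fun n hn => ((h n).2.2.2.2.2 ⟨l, by omega⟩).1) hlim⟩
  let T : centralSeq (w : Filter ℕ) A := ⟨T₀, mem_centralSeq_of_dense fun l =>
    squeeze_zero_norm' ((hev l).mono fun n hn => ((h n).2.2.2.2.2 ⟨l, by omega⟩).2) hlim⟩
  have eq_of : ∀ f g : centralSeq (w : Filter ℕ) A,
      Tendsto (fun k => (f : ℕ →ᵇ A) k - (g : ℕ →ᵇ A) k) (w : Filter ℕ) (𝓝 0) →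
      Ideal.Quotient.mk (nullIdeal w) f = Ideal.Quotient.mk (nullIdeal w) g := fun f g hfg => by
    rw [Ideal.Quotient.mk_eq_mk_iff_sub_mem, mem_nullIdeal]
    exact hfg
  refine ⟨Ideal.Quotient.mk _ Y, Ideal.Quotient.mk _ T, fun g => ?_, ?_, ?_, ?_⟩
  · obtain ⟨i, rfl⟩ := he g
    exact ⟨eq_of (centralAct α w (e i) Y) Y
        (squeeze_zero_norm' ((hev i).mono fun n hn => ((h n).2.2.2.2.1 ⟨i, by omega⟩).1) hlim),
      eq_of (centralAct α w (e i) T) T
        (squeeze_zero_norm' ((hev i).mono fun n hn => ((h n).2.2.2.2.1 ⟨i, by omega⟩).2) hlim)⟩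
  · refine (eq_of (Y * Y) 0 (squeeze_zero_norm (fun n => ?_) hlim)).trans (map_zero _)
    simpa [Y, Y₀] using (h n).2.1
  · exact eq_of (star T * T) (1 - star Y * Y - Y * star Y)
      (squeeze_zero_norm (fun n => (h n).2.2.1) hlim)
  · exact eq_of (star Y * Y * T) T (squeeze_zero_norm (fun n => (h n).2.2.2.1) hlim)

/-- Relations with exactly fixed classes for every finite subset give relations fixed by all. -/
theorem exists_fixed_drop [TopologicalSpace.SeparableSpace A] [Countable G]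
    (hw : (w : Filter ℕ) ≤ cofinite)
    (h : ∀ S : Finset G, ∃ y s : CentralQuot (A := A) w,
      (∀ g ∈ S, quotAct α w g y = y ∧ quotAct α w g s = s) ∧ DropRelations y s) :
    ∃ y s : CentralQuot (A := A) w,
      (∀ g, quotAct α w g y = y ∧ quotAct α w g s = s) ∧ DropRelations y s := by
  classical
  obtain ⟨e, he⟩ := exists_surjective_nat G
  have key : ∀ n : ℕ,
      ∃ a b : A, Approx α e (TopologicalSpace.denseSeq A) n (1 / ((n : ℝ) + 1)) a b := fun n => by
    obtain ⟨y, s, hfix, hrel⟩ := h (Finset.univ.image fun i : Fin (n + 1) => e i)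
    exact exists_approx α e _ n (by positivity)
      (fun i => hfix _ (Finset.mem_image.2 ⟨i, Finset.mem_univ _, rfl⟩)) hrel
  choose a b hab using key
  exact exists_of_approx α hw he hab

/-- A pair with the dimension drop relations excludes characters. -/
theorem isEmpty_character_of_dropRelations {F : Type*} [CStarAlgebra F] {y s : F}
    (h : DropRelations y s) : IsEmpty (F →⋆ₐ[ℂ] ℂ) := ⟨fun χ => by
  have h0 : χ y = 0 := mul_self_eq_zero.1 (by rw [← map_mul, h.1, map_zero])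
  have h1 := congrArg χ h.2.2
  have h2 := congrArg χ h.2.1
  simp only [map_mul, map_star, map_sub, map_one, h0, mul_zero, zero_mul, star_zero,
    sub_zero] at h1 h2
  rw [← h1, mul_zero] at h2
  exact zero_ne_one h2⟩

/-- The case of a locally finite group: pairs fixed by each finite subgroup give a pair fixed by
the whole group. -/
theorem exists_fixed_drop_of_locallyFinite [TopologicalSpace.SeparableSpace A] [Countable G]
    (hw : (w : Filter ℕ) ≤ cofinite)
    (hG : ∀ S : Finset G, Finite (Subgroup.closure (S : Set G)))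
    (h : ∀ H : Subgroup G, Finite H → ∃ y s : CentralQuot (A := A) w,
      (∀ g ∈ H, quotAct α w g y = y ∧ quotAct α w g s = s) ∧ DropRelations y s) :
    ∃ y s : CentralQuot (A := A) w,
      (∀ g, quotAct α w g y = y ∧ quotAct α w g s = s) ∧ DropRelations y s :=
  exists_fixed_drop α hw fun S => by
    obtain ⟨y, s, hfix, hrel⟩ := h _ (hG S)
    exact ⟨y, s, fun g hg => hfix g (Subgroup.subset_closure hg), hrel⟩

end Vale.Agent.P095
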