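import Vale.Agent.P095.Pool

/-!
P095: differences of two copies. The left ideal they generate is everything, so the sum of
`star D * D` is bounded below; they commute for disjoint pairs of copies.
-/

namespace Vale.Agent.P095

open Finset

universe u

variable {F : Type u} [CStarAlgebra F] {G : Type} {α : G → F →⋆ₐ[ℂ] F} {n : ℕ}
  (P : Pool α n)

/-- The five words in one copy used in the differences. -/
def word (i : ℕ) : Fin 5 × Fin n → F := fun x =>
  (![P.b i x.2, P.c i x.2 * P.e i x.2, P.c i x.2 * P.e i x.2 * P.b i x.2, P.e i x.2,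
    P.e i x.2 * P.b i x.2] : Fin 5 → F) x.1

/-- The differences of two copies. -/
def diff (p : ℕ × ℕ) (x : Fin 5 × Fin n) : F := word P p.1 x - word P p.2 x

/-- The twisted sums `∑ star D * α h D`. -/
noncomputable def kern (h : G) (p : ℕ × ℕ) : F := ∑ x, star (diff P p x) * α h (diff P p x)

/-- The entries of one copy. -/
def entries (i : ℕ) : Set F :=
  Set.range (P.a i) ∪ Set.range (P.b i) ∪ Set.range (P.c i) ∪ Set.range (P.e i)

/-- Two pairs of copies without a common member. -/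
def Apart (p q : ℕ × ℕ) : Prop :=
  p.1 ≠ q.1 ∧ p.1 ≠ q.2 ∧ p.2 ≠ q.1 ∧ p.2 ≠ q.2

lemma commute_word_entry {i j : ℕ} (hij : i ≠ j) (g h : G) {v : F} (hv : v ∈ entries P j)
    (x : Fin 5 × Fin n) :
    Commute (α g (word P i x)) (α h v) ∧ Commute (α g (word P i x)) (star (α h v)) := by
  have hb := P.comm i j hij g h (P.b i x.2) (Or.inl (Or.inl (Or.inr ⟨_, rfl⟩))) v hv
  have hc := P.comm i j hij g h (P.c i x.2) (Or.inl (Or.inr ⟨_, rfl⟩)) v hv
  have he := P.comm i j hij g h (P.e i x.2) (Or.inr ⟨_, rfl⟩) v hv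
  obtain ⟨a, l⟩ := x
  fin_cases a <;> simp only [word] <;> constructor <;>
    simp [map_mul, hb.1, hb.2, hc.1, hc.2, he.1, he.2, Commute.mul_left]

lemma commute_word {i j : ℕ} (hij : i ≠ j) (g h : G) (x z : Fin 5 × Fin n) :
    Commute (α g (word P i x)) (α h (word P j z)) ∧
      Commute (α g (word P i x)) (star (α h (word P j z))) := by
  have hb := commute_word_entry P hij g h (Or.inl (Or.inl (Or.inr ⟨z.2, rfl⟩))) x
  have hc := commute_word_entry P hij g h (Or.inl (Or.inr ⟨z.2, rfl⟩)) x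
  have he := commute_word_entry P hij g h (Or.inr ⟨z.2, rfl⟩) x
  obtain ⟨a, l⟩ := z
  simp only at hb hc he
  generalize α g (word P i x) = X at hb hc he ⊢
  fin_cases a <;> simp only [word] <;> constructor <;>
    simp [map_mul, star_mul, hb.1, hb.2, hc.1, hc.2, he.1, he.2, Commute.mul_right]

lemma commute_diff {p q : ℕ × ℕ} (hpq : Apart p q) (g h : G) (x z : Fin 5 × Fin n) :
    Commute (α g (diff P p x)) (α h (diff P q z)) ∧
      Commute (α g (diff P p x)) (star (α h (diff P q z))) := by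
  obtain ⟨h11, h12, h21, h22⟩ := hpq
  have c11 := commute_word P h11 g h x z
  have c12 := commute_word P h12 g h x z
  have c21 := commute_word P h21 g h x z
  have c22 := commute_word P h22 g h x z
  constructor
  · simp only [diff, map_sub]
    exact (c11.1.sub_left c21.1).sub_right (c12.1.sub_left c22.1)
  · simp only [diff, map_sub, star_sub]
    exact (c11.2.sub_left c21.2).sub_right (c12.2.sub_left c22.2)

lemma Apart.symm {p q : ℕ × ℕ} (h : Apart p q) : Apart q p :=
  ⟨h.1.symm, h.2.2.1.symm, h.2.1.symm, h.2.2.2.symm⟩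

lemma commute_diff' {p q : ℕ × ℕ} (hpq : Apart p q) (g h : G) (x z : Fin 5 × Fin n) :
    Commute (star (α g (diff P p x))) (α h (diff P q z)) ∧
      Commute (star (α g (diff P p x))) (star (α h (diff P q z))) :=
  ⟨((commute_diff P hpq.symm h g z x).2).symm, (commute_diff P hpq g h x z).1.star_star⟩

lemma norm_word_le (i : ℕ) (x : Fin 5 × Fin n) : ‖word P i x‖ ≤ (1 + P.bound) ^ 3 := by
  obtain ⟨a, l⟩ := x
  obtain ⟨-, hb, hc, he⟩ := P.norm_le i l
  have h0 : 0 ≤ P.bound := (norm_nonneg _).trans hb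
  have hce : ‖P.c i l * P.e i l‖ ≤ P.bound * P.bound :=
    (norm_mul_le _ _).trans (mul_le_mul hc he (norm_nonneg _) h0)
  have heb : ‖P.e i l * P.b i l‖ ≤ P.bound * P.bound :=
    (norm_mul_le _ _).trans (mul_le_mul he hb (norm_nonneg _) h0)
  have hceb : ‖P.c i l * P.e i l * P.b i l‖ ≤ P.bound * P.bound * P.bound :=
    (norm_mul_le _ _).trans (mul_le_mul hce hb (norm_nonneg _) (mul_nonneg h0 h0))
  fin_cases a <;> simp [word] <;> nlinarith [mul_nonneg h0 h0, mul_nonneg (mul_nonneg h0 h0) h0]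

lemma norm_diff_le (p : ℕ × ℕ) (x : Fin 5 × Fin n) :
    ‖diff P p x‖ ≤ 2 * (1 + P.bound) ^ 3 := by
  have := norm_sub_le (word P p.1 x) (word P p.2 x)
  simp only [diff]
  linarith [norm_word_le P p.1 x, norm_word_le P p.2 x]

lemma exists_kern_bound [Fintype G] :
    ∃ K : ℝ, 0 ≤ K ∧ ∀ g h p, ‖α g (kern P h p)‖ ≤ K := by
  refine ⟨∑ _x : Fin 5 × Fin n, (2 * (1 + P.bound) ^ 3) * (2 * (1 + P.bound) ^ 3),
    Finset.sum_nonneg fun _ _ => mul_self_nonneg _, fun g h p => ?_⟩
  refine (NonUnitalStarAlgHom.norm_apply_le (α g) _).trans ((norm_sum_le _ _).trans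
    (Finset.sum_le_sum fun x _ => ?_))
  refine (norm_mul_le _ _).trans (mul_le_mul ?_ ?_ (norm_nonneg _)
    ((norm_nonneg _).trans (norm_diff_le P p x)))
  · rw [norm_star]
    exact norm_diff_le P p x
  · exact (NonUnitalStarAlgHom.norm_apply_le (α h) _).trans (norm_diff_le P p x)

end Vale.Agent.P095
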