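import Mathlib

/-!
P095: pools of commuting copies, the interface between the central sequence algebra and the
argument that a finite group action has a fixed-point algebra without characters.
-/

namespace Vale.Agent.P095

/-- Boundedly many bounded elements, in countably many copies that commute with each other along
with all translates and adjoints, such that in each copy the commutators generate the unit ideal. -/
structure Pool {F : Type*} [CStarAlgebra F] {G : Type*} (α : G → F →⋆ₐ[ℂ] F) (n : ℕ) where
  /-- Left coefficients. -/
  a : ℕ → Fin n → F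
  /-- First entries of the commutators. -/
  b : ℕ → Fin n → F
  /-- Second entries of the commutators. -/
  c : ℕ → Fin n → F
  /-- Right coefficients. -/
  e : ℕ → Fin n → F
  /-- A common bound. -/
  bound : ℝ
  norm_le : ∀ i l, ‖a i l‖ ≤ bound ∧ ‖b i l‖ ≤ bound ∧ ‖c i l‖ ≤ bound ∧ ‖e i l‖ ≤ bound
  rel : ∀ i, ∑ l, a i l * (b i l * c i l - c i l * b i l) * e i l = 1
  comm : ∀ i j, i ≠ j → ∀ g h : G,
    ∀ u ∈ Set.range (a i) ∪ Set.range (b i) ∪ Set.range (c i) ∪ Set.range (e i),
    ∀ v ∈ Set.range (a j) ∪ Set.range (b j) ∪ Set.range (c j) ∪ Set.range (e j),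
      Commute (α g u) (α h v) ∧ Commute (α g u) (star (α h v))

end Vale.Agent.P095
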