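import Vale.Agent.P101.Full
import Vale.Agent.P101.Ideal
import Vale.Agent.P095.Pool

/-!
P095: a C*-algebra without characters that has commuting copies has a pool for any finite set of
endomorphisms forming an action.
-/

namespace Vale.Agent.P095

open Vale.Agent.P101 Vale.Agent.P101.Full

variable {F : Type*} [CStarAlgebra F]

/-- Without characters, the commutators generate the unit ideal. -/
theorem exists_commutator_sum (hF : IsEmpty (F →⋆ₐ[ℂ] ℂ)) :
    ∃ (n : ℕ) (a b c e : Fin n → F), ∑ l, a l * (b l * c l - c l * b l) * e l = 1 := by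
  obtain ⟨n, a, s, e, hs, hsum⟩ :=
    exists_sum_eq_one (Set.range fun p : F × F => p.1 * p.2 - p.2 * p.1) fun J hJ => by
      by_contra hne
      push Not at hne
      have hsq : ∀ z : F, z * z = 0 → z ∈ J := fun z hz =>
        (prime_of_coatom hJ fun g => by
          have : z * g * z = (z * g - g * z) * z + g * (z * z) := by noncomm_ring
          rw [this, hz, mul_zero, add_zero]
          exact J.mul_mem_right _ z (hne _ ⟨(z, g), rfl⟩)).elim id id
      obtain ⟨χ⟩ := exists_character hJ fun h hh => exists_scalar_of_sq_zero_mem hJ hsq hh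
      exact hF.false χ
  choose p hp using hs
  exact ⟨n, a, fun l => (p l).1, fun l => (p l).2, e, by
    simp only [hsum, ← hp]⟩

/-- Copies of a commutator identity form a pool. -/
theorem exists_pool {G : Type*} [Group G] [Fintype G] (α : G → F →⋆ₐ[ℂ] F)
    (hmul : ∀ g h, α (g * h) = (α g).comp (α h))
    (hC : HasCopies F) (hF : IsEmpty (F →⋆ₐ[ℂ] ℂ)) : ∃ n, Nonempty (Pool α n) := by
  classical
  obtain ⟨n, a, b, c, e, hsum⟩ := exists_commutator_sum hF
  let X : Fin 4 × Fin n → FreeAlgebra ℂ ((Fin 4 × Fin n) ⊕ (Fin 4 × Fin n)) :=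
    fun i => FreeAlgebra.ι ℂ (Sum.inl i)
  obtain ⟨C, -, hcopy⟩ := copies_of_rel hC (fun i => ![a, b, c, e] i.1 i.2)
    (fun _ : Unit => ∑ l, X (0, l) * (X (1, l) * X (2, l) - X (2, l) * X (1, l)) * X (3, l) - 1)
    (fun _ => by simp [X, hsum])
  choose pick hnorm hrel hcomm using hcopy
  let acc : ℕ → Finset F := Nat.rec ∅ fun _ S =>
    S ∪ Finset.univ.image fun q : G × Fin 4 × Fin n => α q.1 (pick S q.2)
  have hacc : ∀ i j, i < j → ∀ g q, α g (pick (acc i) q) ∈ acc j := by
    intro i j hij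
    induction j, hij using Nat.le_induction with
    | base => exact fun g q =>
        Finset.mem_union_right _ (Finset.mem_image.2 ⟨(g, q), Finset.mem_univ _, rfl⟩)
    | succ j _ ih => exact fun g q => Finset.mem_union_left _ (ih g q)
  have key : ∀ i j, i ≠ j → ∀ g h q r, Commute (α g (pick (acc i) q)) (α h (pick (acc j) r)) ∧
      Commute (α g (pick (acc i) q)) (star (α h (pick (acc j) r))) := by
    have old : ∀ i j, i < j → ∀ g h q r, Commute (α h (pick (acc j) r)) (α g (pick (acc i) q)) ∧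
        Commute (α h (pick (acc j) r)) (star (α g (pick (acc i) q))) := by
      intro i j hij g h q r
      obtain ⟨c1, c2⟩ := hcomm (acc j) r _ (hacc i j hij (h⁻¹ * g) q)
      have e1 : α g (pick (acc i) q) = α h (α (h⁻¹ * g) (pick (acc i) q)) := by
        rw [← StarAlgHom.comp_apply, ← hmul, mul_inv_cancel_left]
      rw [e1, ← map_star]
      exact ⟨c1.map (α h), c2.map (α h)⟩
    intro i j hij g h q r
    rcases lt_or_gt_of_ne hij with hl | hl
    · obtain ⟨c1, c2⟩ := old i j hl g h q r
      exact ⟨c1.symm, (commute_star_comm.2 c2).symm⟩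
    · exact old j i hl h g r q
  refine ⟨n, ⟨{
    a := fun i l => pick (acc i) (0, l)
    b := fun i l => pick (acc i) (1, l)
    c := fun i l => pick (acc i) (2, l)
    e := fun i l => pick (acc i) (3, l)
    bound := C
    norm_le := fun i l => ⟨hnorm _ _, hnorm _ _, hnorm _ _, hnorm _ _⟩
    rel := fun i => sub_eq_zero.1 (by simpa [X] using hrel (acc i) ())
    comm := fun i j hij g h u hu v hv => by
      obtain ⟨q, rfl⟩ : ∃ q, pick (acc i) q = u := by
        rcases hu with ((⟨l, rfl⟩ | ⟨l, rfl⟩) | ⟨l, rfl⟩) | ⟨l, rfl⟩ <;> exact ⟨_, rfl⟩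
      obtain ⟨r, rfl⟩ : ∃ r, pick (acc j) r = v := by
        rcases hv with ((⟨l, rfl⟩ | ⟨l, rfl⟩) | ⟨l, rfl⟩) | ⟨l, rfl⟩ <;> exact ⟨_, rfl⟩
      exact key i j hij g h q r }⟩⟩

end Vale.Agent.P095
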