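import Vale.Agent.P101.Quotient

/-!
P095: an ultrapower of a C*-algebra over an arbitrary index set, with the induced endomorphisms
and functionals.
-/

namespace Vale.Agent.P095

open Filter Vale.Agent.P101
open scoped Topology BoundedContinuousFunction

universe u

/-- The index set of the averaging argument: a number of blocks and a tuple of copies. -/
abbrev Index := Σ L : ℕ, Fin (2 * L) → ℕ

instance : TopologicalSpace Index := ⊥
instance : DiscreteTopology Index := ⟨rfl⟩

variable {F : Type u} [CStarAlgebra F] (W : Ultrafilter Index)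

/-- The bounded families tending to zero. -/
def nullFam : Ideal (Index →ᵇ F) where
  carrier := {f | Tendsto (fun i => f i) (W : Filter Index) (𝓝 0)}
  add_mem' {f g} hf hg := by simpa using hf.add hg
  zero_mem' := tendsto_const_nhds
  smul_mem' c f hf := by
    refine squeeze_zero_norm (fun n => norm_mul_le _ _) ?_
    refine squeeze_zero (fun n => by positivity)
      (fun n => mul_le_mul_of_nonneg_right (c.norm_coe_le_norm n) (norm_nonneg _)) ?_
    simpa using (tendsto_zero_iff_norm_tendsto_zero.1 hf).const_mul ‖c‖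

lemma mem_nullFam {f : Index →ᵇ F} :
    f ∈ nullFam W ↔ Tendsto (fun i => f i) (W : Filter Index) (𝓝 0) := Iff.rfl

instance : (nullFam (F := F) W).IsTwoSided where
  mul_mem_of_left {f} g hf := by
    refine squeeze_zero_norm (fun n => norm_mul_le _ _) ?_
    refine squeeze_zero (fun n => by positivity)
      (fun n => mul_le_mul_of_nonneg_left (g.norm_coe_le_norm n) (norm_nonneg _)) ?_
    simpa using (tendsto_zero_iff_norm_tendsto_zero.1 hf).mul_const ‖g‖

instance : IsClosed (nullFam (F := F) W : Set (Index →ᵇ F)) := by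
  refine isClosed_of_closure_subset fun g hg => ?_
  rw [SetLike.mem_coe, mem_nullFam, Metric.tendsto_nhds]
  intro ε hε
  obtain ⟨f, hf, hfg⟩ := Metric.mem_closure_iff.1 hg (ε / 2) (by positivity)
  filter_upwards [Metric.tendsto_nhds.1 hf (ε / 2) (by positivity)] with n hn
  have h1 := BoundedContinuousFunction.dist_coe_le_dist (f := g) (g := f) n
  linarith [dist_triangle (g n) (f n) 0]

instance : GoodIdeal (nullFam (F := F) W) where
  twoSided := inferInstance
  closed := inferInstance
  star_mem f hf := by
    rw [mem_nullFam, tendsto_zero_iff_norm_tendsto_zero] at hf ⊢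
    simpa using hf
  cstar f g hg ε hε := by
    rw [mem_nullFam] at hg
    set c := Real.sqrt (‖g‖ + ε) with hc
    have hev : ∀ᶠ i in (W : Filter Index), ‖f i‖ ≤ c := by
      filter_upwards [Metric.tendsto_nhds.1 hg ε hε] with n hn
      rw [dist_zero_right] at hn
      apply Real.le_sqrt_of_sq_le
      have h2 : ‖g n‖ ≤ ‖g‖ := g.norm_coe_le_norm n
      have h3 : ‖star (f n) * f n‖ ≤ ‖g n‖ + ‖g n - star (f n) * f n‖ :=
        norm_le_norm_add_norm_sub _ _
      rw [CStarRing.norm_star_mul_self] at h3
      simp only [BoundedContinuousFunction.coe_sub, BoundedContinuousFunction.coe_mul,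
        BoundedContinuousFunction.coe_star, Pi.sub_apply, Pi.mul_apply, Pi.star_apply] at hn
      rw [sq]
      linarith
    have hb : ∀ i, ‖if ‖f i‖ ≤ c then f i else 0‖ ≤ c := by
      intro i
      split_ifs with hi
      · exact hi
      · simp [hc]
    let f' : Index →ᵇ F := BoundedContinuousFunction.ofNormedAddCommGroup
      (fun i => if ‖f i‖ ≤ c then f i else 0) continuous_of_discreteTopology c hb
    refine ⟨f', ?_, ?_⟩
    · rw [mem_nullFam]
      exact tendsto_const_nhds.congr' (hev.mono fun i hi => by simp [f', hi])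
    · refine (mul_le_mul ((BoundedContinuousFunction.norm_le (Real.sqrt_nonneg _)).2 hb)
        ((BoundedContinuousFunction.norm_le (Real.sqrt_nonneg _)).2 hb) (norm_nonneg _)
        (Real.sqrt_nonneg _)).trans (Real.mul_self_sqrt (by positivity)).le

/-- The ultrapower. -/
abbrev Ultra (F : Type u) [CStarAlgebra F] (W : Ultrafilter Index) : Type u :=
  (Index →ᵇ F) ⧸ nullFam (F := F) W

/-- A bounded family as an element of the ultrapower. -/
noncomputable def fam (f : Index → F) (B : ℝ) (h : ∀ i, ‖f i‖ ≤ B) : Index →ᵇ F :=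
  BoundedContinuousFunction.ofNormedAddCommGroup f continuous_of_discreteTopology B h

@[simp] lemma fam_apply (f : Index → F) (B : ℝ) (h : ∀ i, ‖f i‖ ≤ B) (i : Index) :
    fam f B h i = f i := rfl

/-- The class of a family. -/
noncomputable abbrev cls : (Index →ᵇ F) →⋆ₐ[ℂ] Ultra F W := quotHom (nullFam (F := F) W)

lemma cls_surjective : Function.Surjective (cls (F := F) W) := Ideal.Quotient.mk_surjective

lemma cls_eq_cls {f g : Index →ᵇ F} :
    cls W f = cls W g ↔ Tendsto (fun i => f i - g i) (W : Filter Index) (𝓝 0) :=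
  Ideal.Quotient.mk_eq_mk_iff_sub_mem f g

lemma exists_lift_comp (β : F →⋆ₐ[ℂ] F) :
    ∃ β' : Ultra F W →⋆ₐ[ℂ] Ultra F W, ∀ (f g : Index →ᵇ F), (∀ i, g i = β (f i)) →
      β' (cls W f) = cls W g := by
  have hb : ∀ (f : Index →ᵇ F) i, ‖β (f i)‖ ≤ ‖f‖ := fun f i =>
    (NonUnitalStarAlgHom.norm_apply_le β _).trans (f.norm_coe_le_norm i)
  let post : (Index →ᵇ F) →⋆ₐ[ℂ] (Index →ᵇ F) :=
    { toFun := fun f => fam (fun i => β (f i)) ‖f‖ (hb f)
      map_one' := by ext i; simp
      map_mul' := fun f g => by ext i; simp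
      map_zero' := by ext i; simp
      map_add' := fun f g => by ext i; simp
      commutes' := fun r => by ext i; simp [Algebra.algebraMap_eq_smul_one]
      map_star' := fun f => by ext i; simp [map_star] }
  have hker : ∀ f ∈ nullFam W, (cls W).toAlgHom.comp post.toAlgHom f = 0 := by
    intro f hf
    show cls W (post f) = 0
    rw [← map_zero (cls W), cls_eq_cls]
    rw [mem_nullFam, tendsto_zero_iff_norm_tendsto_zero] at hf
    refine squeeze_zero_norm (fun i => ?_) hf
    simpa [post] using NonUnitalStarAlgHom.norm_apply_le β (f i)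
  refine ⟨{ Ideal.Quotient.liftₐ (nullFam W) ((cls W).toAlgHom.comp post.toAlgHom) hker with
    map_star' := fun x => ?_ }, fun f g hfg => ?_⟩
  · obtain ⟨f, rfl⟩ := Ideal.Quotient.mk_surjective x
    show Ideal.Quotient.liftₐ (nullFam W) _ hker (star (Ideal.Quotient.mk _ f)) = star _
    rw [star_mk]
    show cls W (post (star f)) = star (cls W (post f))
    rw [map_star, map_star]
  · show cls W (post f) = cls W g
    congr 1
    ext i
    simp [post, hfg i]

/-- A bounded functional applied along the ultrafilter. -/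
lemma exists_limit_functional (φ : F →ₗ[ℂ] ℂ) (hφ : ∀ x, ‖φ x‖ ≤ ‖x‖) :
    ∃ τ : Ultra F W →ₗ[ℂ] ℂ, (∀ x, ‖τ x‖ ≤ ‖x‖) ∧
      ∀ f : Index →ᵇ F, Tendsto (fun i => φ (f i)) (W : Filter Index) (𝓝 (τ (cls W f))) := by
  have hex : ∀ f : Index →ᵇ F, ∃ x, Tendsto (fun i => φ (f i)) (W : Filter Index) (𝓝 x) := by
    intro f
    obtain ⟨x, _, hx⟩ := (isCompact_closedBall (0 : ℂ) ‖f‖).ultrafilter_le_nhds
      (W.map fun i => φ (f i)) (by
        rw [Ultrafilter.coe_map]
        exact Filter.le_principal_iff.2 (Filter.mem_map.2 (Filter.univ_mem' fun i => by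
          simpa using (hφ (f i)).trans (f.norm_coe_le_norm i))))
    exact ⟨x, hx⟩
  choose v hv using hex
  choose lift hlift using cls_surjective (F := F) W
  have key : ∀ f, v (lift (cls W f)) = v f := by
    intro f
    have h1 := (cls_eq_cls W).1 (hlift (cls W f))
    rw [tendsto_zero_iff_norm_tendsto_zero] at h1
    have h2 : Tendsto (fun i => φ (lift (cls W f) i) - φ (f i)) (W : Filter Index) (𝓝 0) :=
      squeeze_zero_norm (fun i => by rw [← map_sub]; exact hφ _) h1
    exact sub_eq_zero.1 (tendsto_nhds_unique ((hv _).sub (hv f)) h2)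
  refine ⟨{ toFun := fun x => v (lift x)
            map_add' := fun x y => ?_
            map_smul' := fun c x => ?_ }, fun x => ?_, fun f => ?_⟩
  · obtain ⟨f, rfl⟩ := cls_surjective W x
    obtain ⟨g, rfl⟩ := cls_surjective W y
    rw [← map_add, key, key, key]
    exact tendsto_nhds_unique (hv _) (((hv f).add (hv g)).congr fun i => by simp)
  · obtain ⟨f, rfl⟩ := cls_surjective W x
    rw [← map_smul, key, key]
    exact tendsto_nhds_unique (hv _) (((hv f).const_smul c).congr fun i => by simp)
  · show ‖v (lift x)‖ ≤ ‖x‖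
    refine le_of_forall_pos_le_add fun ε hε => ?_
    obtain ⟨g, hg, hgn⟩ := Submodule.Quotient.norm_mk_lt x hε
    have h : v (lift x) = v g := by rw [← key g]; exact congrArg (fun z => v (lift z)) hg.symm
    rw [h]
    refine (le_of_tendsto (hv g).norm (Filter.Eventually.of_forall fun i => ?_)).trans hgn.le
    exact (hφ _).trans (g.norm_coe_le_norm i)
  · show Tendsto _ _ (𝓝 (v (lift (cls W f))))
    rw [key]
    exact hv f

end Vale.Agent.P095
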